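import Mathlib

/-!
# P259, existence: adjoining arrows with equations to a small category

The category with the same objects generated by the old arrows and a family of new ones,
subject to a family of equations between words.
-/

open CategoryTheory

universe v u w

namespace P259.Exist

variable {C : Type u} [SmallCategory C]

/-- Words in the old and the new arrows. -/
inductive Word (N : C → C → Type u) : C → C → Type u where
  | old {X Y : C} (f : X ⟶ Y) : Word N X Y
  | new {X Y : C} (h : N X Y) : Word N X Y
  | comp {X Y Z : C} (a : Word N X Y) (b : Word N Y Z) : Word N X Z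

variable {N : C → C → Type u}

/-- The congruence generated by the equations. -/
inductive Eqv (R : ∀ X Y : C, Word N X Y → Word N X Y → Prop) :
    ∀ {X Y : C}, Word N X Y → Word N X Y → Prop where
  | rel {X Y : C} {a b : Word N X Y} (h : R X Y a b) : Eqv R a b
  | refl {X Y : C} (a : Word N X Y) : Eqv R a a
  | symm {X Y : C} {a b : Word N X Y} (h : Eqv R a b) : Eqv R b a
  | trans {X Y : C} {a b c : Word N X Y} (h : Eqv R a b) (h' : Eqv R b c) : Eqv R a c
  | comp {X Y Z : C} {a a' : Word N X Y} {b b' : Word N Y Z} (h : Eqv R a a') (h' : Eqv R b b') :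
      Eqv R (.comp a b) (.comp a' b')
  | idl {X Y : C} (a : Word N X Y) : Eqv R (.comp (.old (𝟙 X)) a) a
  | idr {X Y : C} (a : Word N X Y) : Eqv R (.comp a (.old (𝟙 Y))) a
  | assoc {X Y Z T : C} (a : Word N X Y) (b : Word N Y Z) (c : Word N Z T) :
      Eqv R (.comp (.comp a b) c) (.comp a (.comp b c))
  | oldComp {X Y Z : C} (f : X ⟶ Y) (g : Y ⟶ Z) : Eqv R (.comp (.old f) (.old g)) (.old (f ≫ g))

variable (N) (R : ∀ X Y : C, Word N X Y → Word N X Y → Prop)

/-- The equations as a setoid. -/
def eqvSetoid (X Y : C) : Setoid (Word N X Y) :=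
  ⟨Eqv R, ⟨Eqv.refl, Eqv.symm, Eqv.trans⟩⟩

/-- The generated category; its objects are those of the old one. -/
def Adjoin (_R : ∀ X Y : C, Word N X Y → Word N X Y → Prop) : Type u := C

instance adjoinCategory : SmallCategory (Adjoin N R) where
  Hom X Y := Quotient (eqvSetoid N R X Y)
  id X := Quotient.mk (eqvSetoid N R X X) (Word.old (𝟙 (show C from X)))
  comp {X Y Z} a b :=
    Quotient.map₂ (sa := eqvSetoid N R X Y) (sb := eqvSetoid N R Y Z) (sc := eqvSetoid N R X Z)
      Word.comp (fun _ _ h _ _ h' => Eqv.comp h h') a b
  id_comp {X Y} a := by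
    induction a using Quotient.inductionOn
    exact Quotient.sound (Eqv.idl _)
  comp_id {X Y} a := by
    induction a using Quotient.inductionOn
    exact Quotient.sound (Eqv.idr _)
  assoc {X Y Z T} a b c := by
    induction a using Quotient.inductionOn
    induction b using Quotient.inductionOn
    induction c using Quotient.inductionOn
    exact Quotient.sound (Eqv.assoc _ _ _)

/-- The class of a word. -/
def Adjoin.cls {X Y : C} (a : Word N X Y) :
    @Quiver.Hom (Adjoin N R) _ X Y :=
  Quotient.mk (eqvSetoid N R X Y) a

/-- The old category maps to the generated one. -/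
def Adjoin.incl : C ⥤ Adjoin N R where
  obj X := X
  map f := Adjoin.cls N R (.old f)
  map_id _ := rfl
  map_comp f g := (Quotient.sound (Eqv.oldComp f g)).symm

variable {N} {E : Type w} [Category.{v} E] (F : C ⥤ E)
  (φ : ∀ {X Y : C}, N X Y → (F.obj X ⟶ F.obj Y))

/-- Evaluation of words. -/
def evalWord : ∀ {X Y : C}, Word N X Y → (F.obj X ⟶ F.obj Y)
  | _, _, .old f => F.map f
  | _, _, .new h => φ h
  | _, _, .comp a b => evalWord a ≫ evalWord b

variable (hR : ∀ {X Y : C} (a b : Word N X Y), R X Y a b → evalWord F φ a = evalWord F φ b)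

include hR in
theorem evalWord_eqv {X Y : C} {a b : Word N X Y} (h : Eqv R a b) :
    evalWord F φ a = evalWord F φ b := by
  induction h with
  | rel h => exact hR _ _ h
  | refl => rfl
  | symm _ ih => exact ih.symm
  | trans _ _ ih ih' => exact ih.trans ih'
  | comp _ _ ih ih' => simp [evalWord, ih, ih']
  | idl => simp [evalWord]
  | idr => simp [evalWord]
  | assoc => simp [evalWord]
  | oldComp => simp [evalWord]

/-- The functor out of the generated category. -/
def Adjoin.lift : Adjoin N R ⥤ E where
  obj X := F.obj X
  map {X Y} a := Quotient.lift (s := eqvSetoid N R X Y) (evalWord F φ)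
    (fun _ _ h => evalWord_eqv R F φ hR h) a
  map_id X := F.map_id X
  map_comp {X Y Z} a b := by
    induction a using Quotient.inductionOn
    induction b using Quotient.inductionOn
    rfl

theorem Adjoin.incl_lift : Adjoin.incl N R ⋙ Adjoin.lift R F φ hR = F :=
  CategoryTheory.Functor.hext (fun _ => rfl) fun _ _ _ => HEq.rfl

theorem Adjoin.lift_new {X Y : C} (h : N X Y) :
    (Adjoin.lift R F φ hR).map (Adjoin.cls N R (.new h)) = φ h :=
  rfl

/-- Functors out of the generated category are determined by the old and the new arrows. -/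
theorem Adjoin.ext_functor (G G' : Adjoin N R ⥤ E)
    (h₁ : Adjoin.incl N R ⋙ G = Adjoin.incl N R ⋙ G')
    (h₂ : ∀ {X Y : C} (h : N X Y),
      G.map (Adjoin.cls N R (.new h)) ≍ G'.map (Adjoin.cls N R (.new h))) : G = G' := by
  have hobj : ∀ X : Adjoin N R, G.obj X = G'.obj X := fun X => Functor.congr_obj h₁ X
  refine CategoryTheory.Functor.hext hobj fun X Y a => ?_
  induction a using Quotient.inductionOn with
  | _ a =>
    induction a with
    | old f => exact (Functor.hcongr_hom h₁ f : _)
    | new h => exact h₂ h
    | @comp A B D a b iha ihb =>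
      show G.map (Adjoin.cls N R a ≫ Adjoin.cls N R b) ≍
        G'.map (Adjoin.cls N R a ≫ Adjoin.cls N R b)
      rw [G.map_comp, G'.map_comp]
      exact heq_comp (hobj A) (hobj B) (hobj D) iha ihb

end P259.Exist
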