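import Vale.Agent.P259.Exist.Generated

/-!
# P259, existence: lifts of pairs with small target suffice

If every parallel pair with target of dimension at most one more than that of the source has a
lift, then every parallel pair has a lift: a globular sum of large dimension retracts onto a
smaller one without changing what a pair in low dimension sees.
-/

namespace Vale.Agent.P259

open CategoryTheory Opposite

noncomputable section

namespace Exist

/-- The size of a table. -/
def size (S : Table) : ℕ := ∑ p, (S.top p + 1)

/-- The side `e` of dimension `k` of a position. -/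
def cell (E : Ext) (S : Table) (e : Bool) {k : ℕ} (p : Fin (S.len + 1)) (h : k < S.top p) :
    E.M (disc k) S :=
  E.i.map (side e h ≫ incl S p)

variable {E : Ext}

theorem cell_congr (S : Table) (e : Bool) {k : ℕ} {p p' : Fin (S.len + 1)} (he : p = p')
    (h : k < S.top p) (h' : k < S.top p') : cell E S e p h = cell E S e p' h' := by
  subst he
  rfl

theorem side_incl_glue' (S : Table) (p : Fin S.len) :
    side true (S.lt_left p) ≫ incl S p.castSucc = side false (S.lt_right p) ≫ incl S p.succ :=
  Glob.hom_ext_pre fun _ c => Quot.sound (Table.Rel.glue p c.2)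

/-- Below the gluing, the two positions have the same sides. -/
theorem cell_glue (S : Table) (e : Bool) {k : ℕ} (q : Fin S.len) (h : k < S.bot q) :
    cell E S e q.castSucc (h.trans (S.lt_left q)) =
      cell E S e q.succ (h.trans (S.lt_right q)) := by
  simp only [cell, ← Glob.side_comp e true h (S.lt_left q),
    ← Glob.side_comp e false h (S.lt_right q), Category.assoc, side_incl_glue' S q]

theorem cell_glue_self (S : Table) (q : Fin S.len) :
    cell E S true q.castSucc (S.lt_left q) = cell E S false q.succ (S.lt_right q) :=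
  congrArg E.i.map (side_incl_glue' S q)

theorem map_side_cell (S : Table) (e e' : Bool) {k l : ℕ} (p : Fin (S.len + 1)) (h : k < l)
    (h' : l < S.top p) :
    E.i.map (side e h) ≫ cell E S e' p h' = cell E S e p (h.trans h') := by
  simp only [cell]
  rw [← E.i.map_comp, ← Category.assoc, Glob.side_comp]

/-- A side absorbs an identity cell. -/
theorem map_side_unit (u : E.Units) {k j : ℕ} (e : Bool) (h : k < j) :
    E.i.map (side e (h.trans j.lt_succ_self)) ≫ u.unit j = E.i.map (side e h) := by
  rw [Glob.side_succ e h, E.i.map_comp, Category.assoc, (u.isLift j).1, Category.comp_id]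

theorem face_unit (u : E.Units) (e : Bool) (j : ℕ) : E.face e j ≫ u.unit j = 𝟙 _ := by
  cases e
  · exact (u.isLift j).1
  · exact (u.isLift j).2

/-- A smaller table onto which `S` retracts up to cells of dimension at most `n`. -/
def Reduces (E : Ext) (n : ℕ) (S : Table) : Prop :=
  ∃ S' : Table, size S' < size S ∧
    ∃ (ι : E.M S' S) (r : E.M S S'), Low E n (r ≫ ι) (𝟙 (E.i.obj S))

/-- Two adjacent top discs glued in codimension one: forget the left one. -/
theorem reduces_merge (u : E.Units) {n j : ℕ} (hnj : n < j) {L : ℕ}
    (top : Fin (L + 1 + 1) → ℕ) (bot : Fin (L + 1) → ℕ)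
    (lt_left : ∀ p, bot p < top p.castSucc) (lt_right : ∀ p, bot p < top p.succ)
    (q : Fin (L + 1)) (hb : bot q = j) (hl : top q.castSucc = j + 1) (hr : top q.succ = j + 1)
    (hmin : ∀ p, p < q → bot p < j) :
    Reduces E n ⟨L + 1, top, bot, lt_left, lt_right⟩ := by
  classical
  let S : Table := ⟨L + 1, top, bot, lt_left, lt_right⟩
  let pos : Fin (L + 1) → Fin (L + 1 + 1) := q.castSucc.succAbove
  have fl : ∀ p : Fin L, pos p.castSucc = (q.succAbove p).castSucc := by
    intro p
    refine Fin.ext ?_
    simp only [pos, Fin.succAbove, Fin.lt_def, Fin.val_castSucc]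
    split_ifs with h1 h2 <;> simp_all
  have fr : ∀ p : Fin L, pos p.succ = (q.succAbove p).succ ∨
      ((q.succAbove p).succ = q.castSucc ∧ q = p.succ ∧ q.succAbove p < q) := by
    intro p
    rcases lt_trichotomy (p.1 + 1) q.1 with h | h | h
    · left
      refine Fin.ext ?_
      simp only [pos, Fin.succAbove, Fin.lt_def, Fin.val_castSucc, Fin.val_succ]
      split_ifs with h1 h2 <;> simp_all <;> omega
    · right
      have hp : q.succAbove p = p.castSucc :=
        Fin.succAbove_of_castSucc_lt q p (by simp [Fin.lt_def]; omega)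
      exact ⟨Fin.ext (by simp [hp, ← h]), Fin.ext h.symm, by rw [hp, Fin.lt_def]; simp; omega⟩
    · left
      refine Fin.ext ?_
      simp only [pos, Fin.succAbove, Fin.lt_def, Fin.val_castSucc, Fin.val_succ]
      split_ifs with h1 h2 <;> simp_all <;> omega
  have hlr : ∀ p : Fin L, bot (q.succAbove p) < top (pos p.succ) := by
    intro p
    rcases fr p with h | ⟨h, h', h''⟩
    · rw [h]
      exact lt_right _
    · have : pos p.succ = q.succ := by
        rw [← h']
        exact Fin.succAbove_castSucc_self q
      rw [this, hr]
      exact lt_trans (hmin _ h'') j.lt_succ_self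
  let S' : Table :=
    ⟨L, fun p => top (pos p), fun p => bot (q.succAbove p),
      fun p => by rw [fl p]; exact lt_left _, hlr⟩
  have hqpos : pos q = q.succ := Fin.succAbove_castSucc_self q
  have hq' : j < S'.top q := by
    show j < top (pos q)
    rw [hqpos, hr]
    exact j.lt_succ_self
  -- the forgotten position
  let special : E.M (disc (S.top q.castSucc)) S' :=
    eqToHom (congrArg (fun d => E.i.obj (disc d)) hl) ≫ u.unit j ≫ cell E S' false q hq'
  have hspecial : ∀ (e : Bool) {k : ℕ} (hk : k < S.top q.castSucc) (hkj : k < j),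
      E.i.map (side e hk) ≫ special = cell E S' e q (hkj.trans hq') := by
    intro e k hk hkj
    have h1 : E.i.map (side e hk) ≫ eqToHom (congrArg (fun d => E.i.obj (disc d)) hl) =
        E.i.map (side e (hkj.trans j.lt_succ_self)) := by
      have : ∀ {d : ℕ} (hd : d = j + 1) (hkd : k < d),
          E.i.map (side e hkd) ≫ eqToHom (congrArg (fun d => E.i.obj (disc d)) hd) =
            E.i.map (side e (hkj.trans j.lt_succ_self)) := by
        intro d hd hkd
        subst hd
        simp
      exact this hl hk
    simp only [special, reassoc_of% h1, reassoc_of% (map_side_unit u e hkj)]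
    exact map_side_cell S' e false q hkj hq'
  have hspecial' : ∀ (e : Bool) {k : ℕ} (hk : k < S.top q.castSucc) (hkj : k = j),
      E.i.map (side e hk) ≫ special = cell E S' false q (hkj ▸ hq') := by
    intro e k hk hkj
    subst hkj
    have h1 : E.i.map (side e hk) ≫ eqToHom (congrArg (fun d => E.i.obj (disc d)) hl) =
        E.face e k := by
      have : ∀ {d : ℕ} (hd : d = k + 1) (hkd : k < d),
          E.i.map (side e hkd) ≫ eqToHom (congrArg (fun d => E.i.obj (disc d)) hd) =
            E.face e k := by
        intro d hd hkd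
        subst hd
        simp
      exact this hl hk
    simp only [special, reassoc_of% h1, reassoc_of% (face_unit u e k)]
  let φ : ∀ p, E.M (disc (S.top p)) S' :=
    Fin.insertNth (α := fun p => E.M (disc (S.top p)) S') q.castSucc special
      fun p => E.i.map (incl S' p)
  have φq : φ q.castSucc = special := Fin.insertNth_apply_same _ _ _
  have φpos : ∀ p, φ (pos p) = E.i.map (incl S' p) := fun p => Fin.insertNth_apply_succAbove _ _ _ _
  have φcell : ∀ (e : Bool) {k : ℕ} (p : Fin (L + 1 + 1)) (p' : Fin (L + 1)) (_ : pos p' = p)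
      (hk : k < S.top p) (hk' : k < S'.top p'),
      E.i.map (side e hk) ≫ φ p = cell E S' e p' hk' := by
    intro e k p p' h hk hk'
    subst h
    rw [φpos]
    exact (E.i.map_comp _ _).symm
  obtain ⟨r, hr', -⟩ := E.sums S (E.i.obj S') φ (by
    intro t
    rcases Fin.eq_self_or_eq_succAbove q t with h | ⟨p, h⟩
    · subst h
      rw [φq, φcell false t.succ t hqpos (S.lt_right t) (by
        show S.bot t < top (pos t)
        rw [hqpos]; exact S.lt_right t)]
      rw [hspecial' true (S.lt_left t) hb]
    · subst h
      rw [φcell true (q.succAbove p).castSucc p.castSucc (fl p) (S.lt_left _) (S'.lt_left p)]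
      rcases fr p with h | ⟨h, h', h''⟩
      · rw [φcell false (q.succAbove p).succ p.succ h (S.lt_right _) (S'.lt_right p)]
        exact cell_glue_self S' p
      · have hk : S.bot (q.succAbove p) < S.top q.castSucc :=
          lt_of_lt_of_eq ((hmin _ h'').trans j.lt_succ_self) hl.symm
        have e1 : E.i.map (side false (S.lt_right (q.succAbove p))) ≫
            φ (q.succAbove p).succ = E.i.map (side false hk) ≫ φ q.castSucc := by
          have : ∀ (t : Fin (L + 1 + 1)) (ht : t = q.castSucc) (hkt : S.bot (q.succAbove p) < S.top t),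
              E.i.map (side false hkt) ≫ φ t = E.i.map (side false hk) ≫ φ q.castSucc := by
            intro t ht hkt
            subst ht
            rfl
          exact this _ h _
        rw [e1, φq, hspecial false hk (hmin _ h''),
          cell_congr S' false h' _ (S'.lt_right p)]
        exact cell_glue_self S' p)
  obtain ⟨ι, hι, -⟩ := E.sums S' (E.i.obj S) (fun p => E.i.map (incl S (pos p))) (by
    intro p
    rw [← E.i.map_comp, ← E.i.map_comp]
    show cell E S true (pos p.castSucc) (S'.lt_left p) =
      cell E S false (pos p.succ) (S'.lt_right p)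
    rw [cell_congr S true (fl p) _ (S.lt_left _), cell_glue_self S]
    rcases fr p with h | ⟨h, h', h''⟩
    · exact cell_congr S false h.symm _ _
    · have hpq : pos p.succ = q.succ := by rw [← h']; exact hqpos
      have hk : S.bot (q.succAbove p) < S.bot q := (hmin _ h'').trans_eq hb.symm
      rw [cell_congr S false h _ (hk.trans (S.lt_left q)), cell_glue S false q hk]
      exact cell_congr S false hpq.symm _ _)
  refine ⟨S', ?_, ι, r, ?_⟩
  · show ∑ p : Fin (L + 1), (top (pos p) + 1) < ∑ p, (top p + 1)
    rw [Fin.sum_univ_succAbove (fun p => top p + 1) q.castSucc]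
    exact Nat.lt_add_of_pos_left (Nat.succ_pos _)
  refine low_of_cells fun k hk g => ?_
  rw [Category.comp_id]
  rcases Glob.disc_hom_cases g with ⟨p, hp, rfl⟩ | ⟨p, e, hp, rfl⟩
  · rcases Fin.eq_self_or_eq_succAbove q.castSucc p with h | ⟨p', h⟩
    · subst h
      have : k = j + 1 := hp.trans hl
      omega
    · subst h
      rw [E.i.map_comp, Category.assoc, reassoc_of% (hr' _), reassoc_of% (φpos p')]
      exact congrArg _ (hι p')
  · rw [E.i.map_comp, Category.assoc, reassoc_of% (hr' _)]
    rcases Fin.eq_self_or_eq_succAbove q.castSucc p with h | ⟨p', h⟩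
    · subst h
      have hkj : k < j := lt_of_le_of_lt hk hnj
      rw [φq, reassoc_of% (hspecial e hp hkj)]
      show E.i.map (side e _ ≫ incl S' q) ≫ ι = _
      rw [E.i.map_comp, Category.assoc, hι q, ← E.i.map_comp, ← E.i.map_comp]
      show cell E S e (pos q) _ = cell E S e q.castSucc _
      rw [cell_congr S e hqpos _ ((hkj.trans_eq hb.symm).trans (S.lt_right q))]
      exact (cell_glue S e q (hkj.trans_eq hb.symm)).symm
    · subst h
      rw [reassoc_of% (φpos p')]
      exact congrArg _ (hι p')

/-- No gluing in codimension one below the top dimension: lower all top discs. -/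
theorem reduces_lower (u : E.Units) {n j : ℕ} (hnj : n < j) (S : Table)
    (htop : ∀ p, S.top p ≤ j + 1) (hbot : ∀ p, S.bot p < j) (hex : ∃ p, S.top p = j + 1) :
    Reduces E n S := by
  classical
  let top' : Fin (S.len + 1) → ℕ := fun p => min (S.top p) j
  let S' : Table := ⟨S.len, top', S.bot, fun p => lt_min (S.lt_left p) (hbot p),
    fun p => lt_min (S.lt_right p) (hbot p)⟩
  have key : ∀ d, d ≤ j + 1 → ∃ (a : E.M (disc (min d j)) (disc d))
      (b : E.M (disc d) (disc (min d j))),
      (∀ (e : Bool) (k : ℕ) (h : k < min d j) (h' : k < d),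
        E.i.map (side e h) ≫ a = E.i.map (side e h') ∧
        E.i.map (side e h') ≫ b = E.i.map (side e h)) ∧
      (∀ (e : Bool) (k : ℕ) (_ : k < j) (h : k < d),
        E.i.map (side e h) ≫ b ≫ a = E.i.map (side e h)) ∧
      (d ≤ j → b ≫ a = 𝟙 _) := by
    intro d hd
    rcases Nat.lt_or_ge j d with h | h
    · obtain rfl : d = j + 1 := by omega
      have hm : min (j + 1) j = j := by omega
      refine ⟨eqToHom (congrArg (fun d => E.i.obj (disc d)) hm) ≫ E.face false j,
        u.unit j ≫ eqToHom (congrArg (fun d => E.i.obj (disc d)) hm.symm), ?_, ?_,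
        fun h' => absurd h' (by omega)⟩
      · intro e k hk hk'
        have hkj : k < j := by omega
        have : ∀ {x : ℕ} (hx : x = j) (hkx : k < x),
            E.i.map (side e hkx) ≫ eqToHom (congrArg (fun d => E.i.obj (disc d)) hx) =
              E.i.map (side e hkj) ∧
            E.i.map (side e hkj) ≫ eqToHom (congrArg (fun d => E.i.obj (disc d)) hx.symm) =
              E.i.map (side e hkx) := by
          intro x hx hkx
          subst hx
          simp
        constructor
        · rw [reassoc_of% (this hm hk).1, ← E.i.map_comp, Glob.side_comp]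
        · rw [reassoc_of% (map_side_unit u e hkj)]
          exact (this hm hk).2
      · intro e k hkj hk
        rw [show (u.unit j ≫ eqToHom _) ≫ eqToHom _ ≫ E.face false j = u.unit j ≫ E.face false j
          by simp, reassoc_of% (map_side_unit u e hkj), ← E.i.map_comp, Glob.side_comp]
    · have hm : min d j = d := min_eq_left h
      refine ⟨eqToHom (congrArg (fun d => E.i.obj (disc d)) hm),
        eqToHom (congrArg (fun d => E.i.obj (disc d)) hm.symm), ?_, ?_, fun _ => by simp⟩
      · intro e k hk hk'
        have : ∀ {x : ℕ} (hx : x = d) (hkx : k < x),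
            E.i.map (side e hkx) ≫ eqToHom (congrArg (fun d => E.i.obj (disc d)) hx) =
              E.i.map (side e hk') ∧
            E.i.map (side e hk') ≫ eqToHom (congrArg (fun d => E.i.obj (disc d)) hx.symm) =
              E.i.map (side e hkx) := by
          intro x hx hkx
          subst hx
          simp
        exact this hm hk
      · intro e k _ hk
        simp
  choose a b hab hba hid using fun p => key (S.top p) (htop p)
  obtain ⟨ι, hι, -⟩ := E.sums S' (E.i.obj S) (fun p => a p ≫ E.i.map (incl S p)) (fun p => by
    rw [reassoc_of% (hab p.castSucc true (S.bot p) (S'.lt_left p) (S.lt_left p)).1,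
      reassoc_of% (hab p.succ false (S.bot p) (S'.lt_right p) (S.lt_right p)).1,
      ← E.i.map_comp, ← E.i.map_comp, side_incl_glue' S p])
  obtain ⟨r, hr, -⟩ := E.sums S (E.i.obj S') (fun p => b p ≫ E.i.map (incl S' p)) (fun p => by
    rw [reassoc_of% (hab p.castSucc true (S.bot p) (S'.lt_left p) (S.lt_left p)).2,
      reassoc_of% (hab p.succ false (S.bot p) (S'.lt_right p) (S.lt_right p)).2,
      ← E.i.map_comp, ← E.i.map_comp]
    exact congrArg E.i.map (side_incl_glue' S' p))
  refine ⟨S', ?_, ι, r, ?_⟩
  · obtain ⟨p, hp⟩ := hex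
    refine Finset.sum_lt_sum (fun t _ => Nat.succ_le_succ (min_le_left _ _))
      ⟨p, Finset.mem_univ p, ?_⟩
    show min (S.top p) j + 1 < S.top p + 1
    omega
  have he : ∀ p, E.i.map (incl S p) ≫ r ≫ ι = b p ≫ a p ≫ E.i.map (incl S p) := fun p => by
    rw [← Category.assoc, hr p, Category.assoc, hι p]
  refine low_of_cells fun k hk g => ?_
  rw [Category.comp_id]
  rcases Glob.disc_hom_cases g with ⟨p, hp, rfl⟩ | ⟨p, e, hp, rfl⟩
  · rw [E.i.map_comp, Category.assoc, he p, reassoc_of% (hid p (by omega))]
  · rw [E.i.map_comp, Category.assoc, he p, reassoc_of% (hba p e k (by omega) hp)]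

/-- Above dimension `n + 1` a table reduces. -/
theorem reduces (u : E.Units) {n : ℕ} (S : Table) (hS : n + 1 < S.dim) : Reduces E n S := by
  classical
  obtain ⟨p, -, hp⟩ := Finset.exists_mem_eq_sup Finset.univ ⟨0, Finset.mem_univ _⟩ S.top
  obtain ⟨j, hj⟩ : ∃ j, S.top p = j + 1 := ⟨S.top p - 1, by
    have : S.top p = S.dim := hp.symm
    omega⟩
  have hnj : n < j := by
    have : S.top p = S.dim := hp.symm
    omega
  have htop : ∀ t, S.top t ≤ j + 1 := fun t =>
    (Finset.le_sup (f := S.top) (Finset.mem_univ t)).trans_eq (hp.trans hj)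
  have hbot : ∀ t, S.bot t ≤ j := fun t => Nat.lt_succ_iff.1 ((S.lt_left t).trans_le (htop _))
  by_cases h : ∀ t, S.bot t < j
  · exact reduces_lower u hnj S htop h ⟨p, hj⟩
  push Not at h
  obtain ⟨len, top, bot, lt_left, lt_right⟩ := S
  dsimp only at h htop hbot
  obtain ⟨t, ht⟩ := h
  match len, top, bot, lt_left, lt_right, htop, hbot, t, ht with
  | 0, _, _, _, _, _, _, t, _ => exact t.elim0
  | L + 1, top, bot, lt_left, lt_right, htop, hbot, t, ht =>
    let s := Finset.univ.filter fun x => bot x = j
    have hs : s.Nonempty := ⟨t, Finset.mem_filter.2 ⟨Finset.mem_univ _, le_antisymm (hbot t) ht⟩⟩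
    have hq : bot (s.min' hs) = j := (Finset.mem_filter.1 (s.min'_mem hs)).2
    refine reduces_merge u hnj top bot lt_left lt_right (s.min' hs) hq ?_ ?_ ?_
    · have := lt_left (s.min' hs)
      have := htop (s.min' hs).castSucc
      omega
    · have := lt_right (s.min' hs)
      have := htop (s.min' hs).succ
      omega
    · intro x hx
      rcases (hbot x).lt_or_eq with h' | h'
      · exact h'
      · exact absurd hx (not_lt.2 (s.min'_le x (Finset.mem_filter.2 ⟨Finset.mem_univ _, h'⟩)))

end Exist

open Exist in
/-- Lifts of the admissible pairs give lifts of all parallel pairs. -/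
theorem Tower.contractible (W : Tower) (hW : W.Admissible) : W.C.Contractible := by
  classical
  have hu : ∀ m, ∃ h, W.C.IsLift (𝟙 (W.C.i.obj (disc m))) (𝟙 _) h := fun m =>
    hW _ _ (by cases m <;> simp [Ext.Parallel])
      ((Finset.sup_le fun _ _ => le_rfl).trans m.le_succ)
  choose v hv using hu
  let u : W.C.Units := ⟨v, hv⟩
  suffices H : ∀ (N : ℕ) {n : ℕ} {T : Table} (f g : W.C.M (disc n) T), size T ≤ N →
      W.C.Parallel f g → ∃ h, W.C.IsLift f g h from fun {n T} f g h => H _ f g le_rfl h
  intro N
  induction N with
  | zero =>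
    intro n T f g hN _
    exact absurd hN (Nat.not_le.2 (Finset.sum_pos (fun p _ => Nat.succ_pos _)
      ⟨0, Finset.mem_univ _⟩))
  | succ N ih =>
    intro n T f g hN hp
    by_cases hT : T.dim ≤ n + 1
    · exact hW f g hp hT
    obtain ⟨T', hsize, ι, r, hlow⟩ := reduces u (n := n) T (Nat.lt_of_not_le hT)
    have hp' : W.C.Parallel (f ≫ r) (g ≫ r) := by
      cases n with
      | zero => trivial
      | succ n => intro e; simp only [← Category.assoc, hp e]
    obtain ⟨h, hs, ht⟩ := ih (f ≫ r) (g ≫ r) (by omega) hp'
    have hfix : ∀ x : W.C.M (disc n) T, (x ≫ r) ≫ ι = x := fun x => by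
      rw [Category.assoc, comp_eq_of_low W x hlow, Category.comp_id]
    exact ⟨h ≫ ι, by rw [← Category.assoc, hs, hfix], by rw [← Category.assoc, ht, hfix]⟩

/-- A tower with admissible lifts is a coherator. -/
def Tower.toCoherator (W : Tower) (hW : W.Admissible) : Coherator :=
  { W with contractible := fun f g h => W.contractible hW f g h }

theorem Tower.toCoherator_C (W : Tower) (hW : W.Admissible) : (W.toCoherator hW).C = W.C := rfl

end

end Vale.Agent.P259
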