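import Vale.Agent.P259.Exist.Step
import Vale.Agent.P259.Exist.HighPairs
import Vale.Agent.P259.Glob.Rec
import Vale.Agent.P259.Glob.Table

/-!
# P259, existence: coherators exist

Starting from globular sums, each stage adjoins lifts of all pairs with target of dimension at
most one more than that of the source; the union of the stages is a coherator.
-/

namespace Vale.Agent.P259.Exist

open CategoryTheory Opposite

noncomputable section

theorem base_sums : PreservesSums (𝟭 Table) := by
  intro T Z f hf
  let φ : ∀ n : Globe, T.Pre n → Z.toGSet.obj (op n) := fun n c =>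
    (f c.1).hom.app (op n) (Quot.mk _ ⟨0, c.2⟩)
  have hφ : ∀ (n : Globe) (c d : T.Pre n), T.Rel n c d → φ n c = φ n d := by
    intro n c d h
    cases h with
    | glue p g =>
      exact congrArg (fun k : disc (T.bot p) ⟶ Z => k.hom.app (op n) (Quot.mk _ ⟨0, g⟩)) (hf p)
  let h : T ⟶ Z := Table.homMk
    { app := fun n => TypeCat.ofHom (Quot.lift (φ n.unop) (hφ n.unop))
      naturality := fun a b u => by
        refine ConcreteCategory.hom_ext _ _ fun c => ?_
        induction c using Quot.ind with
        | _ c =>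
          exact ConcreteCategory.congr_hom ((f c.1).hom.naturality u) (Quot.mk _ ⟨0, c.2⟩) }
  refine ⟨h, fun p => Glob.hom_ext_pre fun n c => ?_, fun k hk => Glob.hom_ext_pre fun n c => ?_⟩
  · show (f p).hom.app (op n) (Quot.mk _ ⟨0, c.2⟩) = (f p).hom.app (op n) (Quot.mk _ c)
    rw [← Glob.disc_pre_eq c]
  · exact congrArg (fun k : disc (T.top c.1) ⟶ Z => k.hom.app (op n) (Quot.mk _ ⟨0, c.2⟩))
      (hk c.1)

/-- The globular sums as an extension. -/
@[reducible] def base : Ext where
  Obj := Table
  i := 𝟭 Table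
  obj_bij := Function.bijective_id
  sums := base_sums

/-- The stages. -/
def stage : ℕ → Ext
  | 0 => base
  | k + 1 => step (stage k)

variable {R S T U : Table}

/-- The maps of a stage to the next. -/
def tr {k : ℕ} (f : (stage k).M S T) : (stage (k + 1)).M S T := (stepJ (stage k)).map f

/-- The maps of a stage to a later one. -/
def trTo {k l : ℕ} (h : k ≤ l) (f : (stage k).M S T) : (stage l).M S T :=
  Nat.leRecOn (C := fun m => (stage m).M S T) h (fun {_} g => tr g) f

theorem trTo_self {k : ℕ} (h : k ≤ k) (f : (stage k).M S T) : trTo h f = f :=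
  Nat.leRecOn_self (C := fun m => (stage m).M S T) f

theorem trTo_succ {k l : ℕ} (h : k ≤ l) (h' : k ≤ l + 1) (f : (stage k).M S T) :
    trTo h' f = tr (trTo h f) :=
  Nat.leRecOn_succ (C := fun m => (stage m).M S T) h f

theorem trTo_trans {k l m : ℕ} (h : k ≤ l) (h' : l ≤ m) (f : (stage k).M S T) :
    trTo h' (trTo h f) = trTo (h.trans h') f :=
  (Nat.leRecOn_trans (C := fun m => (stage m).M S T) h h' f).symm

theorem trTo_map {k l : ℕ} (h : k ≤ l) (g : S ⟶ T) :
    trTo h ((stage k).i.map g) = (stage l).i.map g := by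
  induction l, h using Nat.le_induction with
  | base => exact trTo_self _ _
  | succ l hl ih => rw [trTo_succ hl, ih]; rfl

theorem trTo_id {k l : ℕ} (h : k ≤ l) (S : Table) :
    trTo h (𝟙 ((stage k).i.obj S)) = 𝟙 ((stage l).i.obj S) := by
  rw [← (stage k).i.map_id, trTo_map, (stage l).i.map_id]

theorem trTo_comp {k l : ℕ} (h : k ≤ l) (f : (stage k).M R S) (g : (stage k).M S T) :
    trTo h (f ≫ g) = trTo h f ≫ trTo h g := by
  induction l, h using Nat.le_induction with
  | base => simp only [trTo_self]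
  | succ l hl ih =>
    rw [trTo_succ hl, trTo_succ hl, trTo_succ hl, ih]
    exact (stepJ (stage l)).map_comp _ _

/-- Maps at some stage. -/
abbrev Arr (S T : Table) : Type := Σ k, (stage k).M S T

/-- Equality at a later stage. -/
def Eqv (a b : Arr S T) : Prop :=
  ∃ (N : ℕ) (ha : a.1 ≤ N) (hb : b.1 ≤ N), trTo ha a.2 = trTo hb b.2

theorem eqv_up {a b : Arr S T} {N M : ℕ} {ha : a.1 ≤ N} {hb : b.1 ≤ N}
    (h : trTo ha a.2 = trTo hb b.2) (hNM : N ≤ M) :
    trTo (ha.trans hNM) a.2 = trTo (hb.trans hNM) b.2 := by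
  rw [← trTo_trans ha hNM, ← trTo_trans hb hNM, h]

instance arrSetoid (S T : Table) : Setoid (Arr S T) where
  r := Eqv
  iseqv :=
    { refl := fun a => ⟨a.1, le_rfl, le_rfl, rfl⟩
      symm := fun ⟨N, ha, hb, h⟩ => ⟨N, hb, ha, h.symm⟩
      trans := fun {a b c} ⟨N, ha, hb, h⟩ ⟨M, hb', hc, h'⟩ =>
        ⟨max N M, ha.trans (le_max_left N M), hc.trans (le_max_right N M),
          (eqv_up h (le_max_left N M)).trans (eqv_up h' (le_max_right N M))⟩ }

/-- The maps of the union. -/
def LimHom (S T : Table) : Type := Quotient (arrSetoid S T)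

/-- The class of a map at a stage. -/
def mk (k : ℕ) (f : (stage k).M S T) : LimHom S T := Quotient.mk _ ⟨k, f⟩

theorem mk_trTo {k l : ℕ} (h : k ≤ l) (f : (stage k).M S T) : mk l (trTo h f) = mk k f :=
  Quotient.sound ⟨l, le_rfl, h, trTo_self _ _⟩

theorem mk_eq {k : ℕ} {a b : (stage k).M S T} (h : mk k a = mk k b) :
    ∃ (N : ℕ) (hN : k ≤ N), trTo hN a = trTo hN b := by
  obtain ⟨N, ha, hb, e⟩ : Eqv (⟨k, a⟩ : Arr S T) ⟨k, b⟩ := Quotient.exact h
  exact ⟨N, ha, e⟩

theorem exists_rep (x : LimHom S T) : ∃ (k : ℕ) (f : (stage k).M S T), mk k f = x := by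
  induction x using Quotient.inductionOn with
  | _ a => exact ⟨a.1, a.2, rfl⟩

theorem exists_reps {ι : Type} [Fintype ι] {A B : ι → Table} (x : ∀ i, LimHom (A i) (B i)) :
    ∃ (N : ℕ) (f : ∀ i, (stage N).M (A i) (B i)), ∀ i, mk N (f i) = x i := by
  choose k f hf using fun i => exists_rep (x i)
  refine ⟨Finset.univ.sup k, fun i => trTo (Finset.le_sup (Finset.mem_univ i)) (f i), fun i => ?_⟩
  rw [mk_trTo, hf]

theorem exists_eq {ι : Type} [Fintype ι] {A B : ι → Table} {N : ℕ}
    (a b : ∀ i, (stage N).M (A i) (B i)) (h : ∀ i, mk N (a i) = mk N (b i)) :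
    ∃ (M : ℕ) (hM : N ≤ M), ∀ i, trTo hM (a i) = trTo hM (b i) := by
  choose k hk e using fun i => mk_eq (h i)
  refine ⟨max N (Finset.univ.sup k), le_max_left _ _, fun i => ?_⟩
  exact eqv_up (a := ⟨N, a i⟩) (b := ⟨N, b i⟩) (e i)
    ((Finset.le_sup (Finset.mem_univ i)).trans (le_max_right _ _))

/-- Composition of classes. -/
def limComp : LimHom R S → LimHom S T → LimHom R T :=
  Quotient.map₂
    (fun a b => ⟨max a.1 b.1,
      trTo (le_max_left _ _) a.2 ≫ trTo (le_max_right _ _) b.2⟩)
    fun a a' ⟨N, ha, ha', h⟩ b b' ⟨M, hb, hb', h'⟩ => by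
      refine ⟨max N M, max_le (ha.trans (le_max_left _ _)) (hb.trans (le_max_right _ _)),
        max_le (ha'.trans (le_max_left _ _)) (hb'.trans (le_max_right _ _)), ?_⟩
      rw [trTo_comp, trTo_comp]
      simp only [trTo_trans]
      exact congrArg₂ (· ≫ ·) (eqv_up h (le_max_left N M)) (eqv_up h' (le_max_right N M))

theorem limComp_mk {k : ℕ} (f : (stage k).M R S) (g : (stage k).M S T) :
    limComp (mk k f) (mk k g) = mk k (f ≫ g) := by
  refine Quotient.sound ⟨max k k, le_rfl, le_max_left k k, ?_⟩
  rw [trTo_self, trTo_comp]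

/-- The objects of the union. -/
structure Lim : Type where
  ob : Table

instance limCategory : SmallCategory Lim where
  Hom a b := LimHom a.ob b.ob
  id a := mk 0 (𝟙 ((stage 0).i.obj a.ob))
  comp x y := limComp x y
  id_comp {a b} x := by
    obtain ⟨k, f, rfl⟩ := exists_rep x
    rw [← mk_trTo (Nat.zero_le k), trTo_id, limComp_mk, Category.id_comp]
  comp_id {a b} x := by
    obtain ⟨k, f, rfl⟩ := exists_rep x
    rw [← mk_trTo (Nat.zero_le k) (𝟙 ((stage 0).i.obj b.ob)), trTo_id, limComp_mk, Category.comp_id]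
  assoc {a b c d} x y z := by
    obtain ⟨k, f, rfl⟩ := exists_rep x
    obtain ⟨l, g, rfl⟩ := exists_rep y
    obtain ⟨m, h, rfl⟩ := exists_rep z
    rw [← mk_trTo (show k ≤ k + l + m by omega) f, ← mk_trTo (show l ≤ k + l + m by omega) g,
      ← mk_trTo (show m ≤ k + l + m by omega) h]
    simp only [limComp_mk, Category.assoc]

theorem comp_mk {k : ℕ} {a b c : Lim} (f : (stage k).M a.ob b.ob) (g : (stage k).M b.ob c.ob) :
    @CategoryStruct.comp Lim _ a b c (mk k f) (mk k g) = mk k (f ≫ g) :=
  limComp_mk f g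

/-- The globular sums in the union. -/
def limI : Table ⥤ Lim where
  obj T := ⟨T⟩
  map {S T} g := mk 0 ((stage 0).i.map g)
  map_id T := congrArg (mk 0) ((stage 0).i.map_id T)
  map_comp f g := (congrArg (mk 0) ((stage 0).i.map_comp f g)).trans (limComp_mk _ _).symm

theorem limI_map (k : ℕ) (g : S ⟶ T) : limI.map g = mk k ((stage k).i.map g) := by
  rw [← trTo_map (Nat.zero_le k) g, mk_trTo]
  rfl

theorem lim_sums : PreservesSums limI := by
  intro T Z f hf
  obtain ⟨N, F, hF⟩ := exists_reps (A := fun p => disc (T.top p)) (B := fun _ => Z.ob) f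
  obtain ⟨M, hM, hc⟩ := exists_eq (A := fun p : Fin T.len => disc (T.bot p)) (B := fun _ => Z.ob)
    (fun p => (stage N).i.map (side true (T.lt_left p)) ≫ F p.castSucc)
    (fun p => (stage N).i.map (side false (T.lt_right p)) ≫ F p.succ) fun p => by
      have h := hf p
      rw [limI_map N, limI_map N, ← hF, ← hF] at h
      exact ((limComp_mk _ _).symm.trans h).trans (limComp_mk _ _)
  obtain ⟨h, hh, hu⟩ := (stage M).sums T ((stage M).i.obj Z.ob) (fun p => trTo hM (F p)) fun p => by
    have e := hc p
    rwa [trTo_comp, trTo_comp, trTo_map, trTo_map] at e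
  refine ⟨mk M h, fun p => ?_, fun y hy => ?_⟩
  · rw [limI_map M, ← hF p, ← mk_trTo hM (F p)]
    exact (limComp_mk _ _).trans (congrArg (mk M) (hh p))
  · obtain ⟨l, g, rfl⟩ : ∃ (l : ℕ) (g : (stage l).M T Z.ob), mk l g = y := exists_rep y
    have hl : l ≤ max l M := le_max_left _ _
    have hMl : M ≤ max l M := le_max_right _ _
    obtain ⟨M', hM', e⟩ := exists_eq (A := fun p => disc (T.top p)) (B := fun _ => Z.ob)
      (fun p => (stage (max l M)).i.map (incl T p) ≫ trTo hl g)
      (fun p => trTo (hM.trans hMl) (F p)) fun p => by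
        have h := hy p
        rw [limI_map (max l M), ← hF p, ← mk_trTo hl g, ← mk_trTo (hM.trans hMl) (F p)] at h
        exact (limComp_mk _ _).symm.trans h
    have eq : trTo (hl.trans hM') g = trTo (hMl.trans hM') h := by
      refine ((stage M').sums T ((stage M').i.obj Z.ob)
        (fun p => trTo (hM.trans (hMl.trans hM')) (F p)) fun p => ?_).unique (fun p => ?_)
        fun p => ?_
      · have e := congrArg (trTo (hMl.trans hM')) (hc p)
        simpa only [trTo_trans, trTo_comp, trTo_map] using e
      · have e' := e p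
        simpa only [trTo_trans, trTo_comp, trTo_map] using e'
      · have e' := congrArg (trTo (hMl.trans hM')) (hh p)
        simpa only [trTo_trans, trTo_comp, trTo_map] using e'
    rw [← mk_trTo (hl.trans hM') g, eq, mk_trTo]
    rfl

/-- The union of the stages. -/
def limExt : Ext where
  Obj := Lim
  i := limI
  obj_bij := ⟨fun _ _ h => congrArg Lim.ob h, fun a => ⟨a.ob, rfl⟩⟩
  sums := lim_sums

/-- The table of an object of a stage. -/
def inv (k : ℕ) : (stage k).Obj → Table := (Equiv.ofBijective _ (stage k).obj_bij).symm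

theorem obj_inv (k : ℕ) (X : (stage k).Obj) : (stage k).i.obj (inv k X) = X :=
  (Equiv.ofBijective _ (stage k).obj_bij).apply_symm_apply X

theorem inv_obj (k : ℕ) (S : Table) : inv k ((stage k).i.obj S) = S :=
  (Equiv.ofBijective _ (stage k).obj_bij).symm_apply_apply S

/-- The stages map into the union. -/
def into (k : ℕ) : (stage k).Obj ⥤ Lim where
  obj X := ⟨inv k X⟩
  map {X Y} f := mk k (Glob.recast (obj_inv k X) (obj_inv k Y).symm f)
  map_id X := by
    show mk k _ = mk 0 _
    rw [← mk_trTo (Nat.zero_le k) (𝟙 _), trTo_id]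
    exact congrArg (mk k) (by simp [Glob.recast])
  map_comp {X Y Z} f g := by
    refine Eq.trans (congrArg (mk k) ?_) (limComp_mk _ _).symm
    simp [Glob.recast]

theorem into_map_heq {k : ℕ} (f : (stage k).M S T) : HEq ((into k).map f) (mk k f) := by
  have key : ∀ (S' T' : Table) (hS : (stage k).i.obj S' = (stage k).i.obj S)
      (hT : (stage k).i.obj T = (stage k).i.obj T'), S' = S → T' = T →
      HEq (mk k (Glob.recast hS hT f) : LimHom S' T') (mk k f) := by
    rintro S' T' hS hT rfl rfl
    simp [Glob.recast]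
  exact key _ _ _ _ (inv_obj k S) (inv_obj k T)

theorem into_comm (k : ℕ) : (stage k).i ⋙ into k = limI :=
  Glob.functor_ext (fun T => congrArg Lim.mk (inv_obj k T)) fun g =>
    (into_map_heq _).trans (heq_of_eq (limI_map k g).symm)

theorem into_step (k : ℕ) : stepJ (stage k) ⋙ into (k + 1) = into k := by
  refine Glob.functor_ext (fun X => congrArg Lim.mk ?_) fun {X Y} f => ?_
  · obtain ⟨S, rfl⟩ := (stage k).obj_bij.2 X
    exact (inv_obj (k + 1) S).trans (inv_obj k S).symm
  · obtain ⟨S, rfl⟩ := (stage k).obj_bij.2 X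
    obtain ⟨T, rfl⟩ := (stage k).obj_bij.2 Y
    refine (into_map_heq (k := k + 1) (tr f)).trans (HEq.trans (heq_of_eq ?_) (into_map_heq f).symm)
    exact (congrArg (mk (k + 1)) ((trTo_succ le_rfl k.le_succ f).trans
      (congrArg tr (trTo_self _ f))).symm).trans (mk_trTo _ f)

theorem colimit (K : Type 1) [Category.{0} K] (F : ∀ k, (stage k).Obj ⥤ K)
    (hF : ∀ k, stepJ (stage k) ⋙ F (k + 1) = F k) :
    ∃! G : Lim ⥤ K, ∀ k, into k ⋙ G = F k := by
  have ho : ∀ k T, (F k).obj ((stage k).i.obj T) = (F 0).obj ((stage 0).i.obj T) := by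
    intro k T
    induction k with
    | zero => rfl
    | succ k ih => exact (CategoryTheory.Functor.congr_obj (hF k) _).trans ih
  have htr : ∀ {k l : ℕ} (h : k ≤ l) {S T : Table} (f : (stage k).M S T),
      HEq ((F l).map (trTo h f)) ((F k).map f) := by
    intro k l h S T f
    induction l, h using Nat.le_induction with
    | base => rw [trTo_self]
    | succ l hl ih =>
      rw [trTo_succ hl]
      exact (Glob.heq_map_functor (hF l) _).trans ih
  let m : ∀ {S T : Table}, LimHom S T →
      ((F 0).obj ((stage 0).i.obj S) ⟶ (F 0).obj ((stage 0).i.obj T)) := fun {S T} =>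
    Quotient.lift (fun a => Glob.recast (ho a.1 S).symm (ho a.1 T) ((F a.1).map a.2))
      fun a b ⟨N, ha, hb, h⟩ => eq_of_heq ((Glob.recast_heq _ _ _).trans
        ((htr ha a.2).symm.trans ((heq_of_eq (congrArg (F N).map h)).trans
          ((htr hb b.2).trans (Glob.recast_heq _ _ _).symm))))
  have hm : ∀ {k : ℕ} {S T : Table} (f : (stage k).M S T), HEq (m (mk k f)) ((F k).map f) :=
    fun f => Glob.recast_heq _ _ _
  let G : Lim ⥤ K :=
    { obj := fun a => (F 0).obj ((stage 0).i.obj a.ob)
      map := fun x => m x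
      map_id := fun a => eq_of_heq ((hm _).trans (heq_of_eq ((F 0).map_id _)))
      map_comp := fun {a b c} x y => by
        obtain ⟨k, f, rfl⟩ := exists_rep x
        obtain ⟨l, g, rfl⟩ := exists_rep y
        rw [← mk_trTo (le_max_left k l) f, ← mk_trTo (le_max_right k l) g, comp_mk]
        exact eq_of_heq ((hm _).trans ((heq_of_eq ((F _).map_comp _ _)).trans
          (Glob.heq_comp (ho _ _) (ho _ _) (ho _ _) (hm _).symm (hm _).symm))) }
  have hG : ∀ k, into k ⋙ G = F k := by
    intro k
    refine Glob.functor_ext (fun X => ?_) fun {X Y} f => ?_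
    · obtain ⟨S, rfl⟩ := (stage k).obj_bij.2 X
      exact (congrArg G.obj (congrArg Lim.mk (inv_obj k S))).trans (ho k S).symm
    · obtain ⟨S, rfl⟩ := (stage k).obj_bij.2 X
      obtain ⟨T, rfl⟩ := (stage k).obj_bij.2 Y
      exact (Glob.heq_map_of_heq G (congrArg Lim.mk (inv_obj k S))
        (congrArg Lim.mk (inv_obj k T)) (into_map_heq f)).trans (hm f)
  refine ⟨G, hG, fun G' hG' => ?_⟩
  have hobj : ∀ S : Table, G'.obj ⟨S⟩ = (F 0).obj ((stage 0).i.obj S) := fun S =>
    (congrArg G'.obj (congrArg Lim.mk (inv_obj 0 S)).symm).trans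
      (CategoryTheory.Functor.congr_obj (hG' 0) _)
  refine Glob.functor_ext (fun a => hobj a.ob) fun {a b} x => ?_
  obtain ⟨k, f, rfl⟩ := exists_rep x
  exact ((Glob.heq_map_of_heq G' (congrArg Lim.mk (inv_obj k a.ob))
    (congrArg Lim.mk (inv_obj k b.ob)) (into_map_heq f)).symm.trans
      (Glob.heq_map_functor (hG' k) f)).trans (hm f).symm

theorem base_full : (stage 0).i.Full := inferInstanceAs (𝟭 Table).Full

theorem base_faithful : (stage 0).i.Faithful := inferInstanceAs (𝟭 Table).Faithful

/-- The tower of all admissible pairs. -/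
def tower : Tower where
  C := limExt
  stage := stage
  zero_full := base_full
  zero_faithful := base_faithful
  step k := stepAdjoins (stage k)
  into := into
  into_comm := into_comm
  into_step := into_step
  colimit := colimit

theorem tower_admissible : tower.Admissible := by
  intro n T f g hp hd
  obtain ⟨N, F, hF⟩ := exists_reps (A := fun _ : Bool => disc n) (B := fun _ => T)
    (fun e => if e then g else f)
  have hpar : ∃ (M : ℕ) (hM : N ≤ M),
      (stage M).Parallel (trTo hM (F false)) (trTo hM (F true)) := by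
    cases n with
    | zero => exact ⟨N, le_rfl, trivial⟩
    | succ m =>
      obtain ⟨M, hM, e⟩ := exists_eq (A := fun _ : Bool => disc m) (B := fun _ => T)
        (fun e => (stage N).face e m ≫ F false) (fun e => (stage N).face e m ≫ F true) fun e => by
          rw [← limComp_mk, ← limComp_mk, hF, hF, ← limI_map N]
          exact hp e
      refine ⟨M, hM, fun b => ?_⟩
      have e' := e b
      simp only [trTo_comp, Ext.face, trTo_map] at e'
      exact e'
  obtain ⟨M, hM, hpM⟩ := hpar
  let a : (stage M).Pair := ⟨n, T, trTo hM (F false), trTo hM (F true), hpM, hd⟩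
  refine ⟨mk (M + 1) (stepLift (stage M) a), ?_, ?_⟩
  · refine ((congrArg (fun z => limComp z (mk (M + 1) (stepLift (stage M) a)))
      (limI_map (M + 1) (side false n.lt_succ_self))).trans (limComp_mk _ _)).trans ?_
    refine ((congrArg (mk (M + 1)) (stepLift_src (stage M) a)).trans ?_).trans (hF false)
    show mk (M + 1) (tr (trTo hM (F false))) = _
    rw [← trTo_succ hM (hM.trans M.le_succ), mk_trTo]
  · refine ((congrArg (fun z => limComp z (mk (M + 1) (stepLift (stage M) a)))
      (limI_map (M + 1) (side true n.lt_succ_self))).trans (limComp_mk _ _)).trans ?_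
    refine ((congrArg (mk (M + 1)) (stepLift_tgt (stage M) a)).trans ?_).trans (hF true)
    show mk (M + 1) (tr (trTo hM (F true))) = _
    rw [← trTo_succ hM (hM.trans M.le_succ), mk_trTo]

end

end Vale.Agent.P259.Exist

namespace Vale.Agent.P259

/-- Coherators exist. -/
theorem nonempty_coherator : Nonempty Coherator :=
  ⟨Exist.tower.toCoherator Exist.tower_admissible⟩

end Vale.Agent.P259
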