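import Vale.Agent.P259.Defs

/-!
# P259, existence: towers with lifts of admissible pairs
-/

namespace Vale.Agent.P259

open CategoryTheory

noncomputable section

/-- The data of a coherator, without the lifting condition. -/
structure Tower : Type 1 where
  C : Ext
  stage : ℕ → Ext
  zero_full : (stage 0).i.Full
  zero_faithful : (stage 0).i.Faithful
  step : ∀ k, Adjoins (stage k) (stage (k + 1))
  into : ∀ k, (stage k).Obj ⥤ C.Obj
  into_comm : ∀ k, (stage k).i ⋙ into k = C.i
  into_step : ∀ k, (step k).J ⋙ into (k + 1) = into k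
  colimit : ∀ (K : Type 1) [Category.{0} K] (F : ∀ k, (stage k).Obj ⥤ K),
    (∀ k, (step k).J ⋙ F (k + 1) = F k) → ∃! G : C.Obj ⥤ K, ∀ k, into k ⋙ G = F k

/-- Lifts of the pairs with target of dimension at most one more than that of the source. -/
def Tower.Admissible (W : Tower) : Prop :=
  ∀ {n : ℕ} {T : Table} (f g : W.C.M (disc n) T),
    W.C.Parallel f g → T.dim ≤ n + 1 → ∃ h, W.C.IsLift f g h

end

end Vale.Agent.P259
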