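import Vale.Agent.P259.Core
import Vale.Agent.P259.Exist.TowerDefs
import Vale.Agent.P259.Glob.Table
import Vale.Agent.P259.Glob.Rec

/-!
# P259, existence: maps of a tower are determined on structural cells of low dimension

`Tower` has the data of a coherator without the lifting condition. A property of maps which holds
of the structural maps and of the adjoined lifts, and is closed under composition and gluing, holds
of all maps.
-/

namespace Vale.Agent.P259

open CategoryTheory Opposite

noncomputable section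

attribute [local instance] uliftCategory

/-- The tower of a coherator. -/
def Coherator.toTower (C : Coherator) : Tower :=
  { C with }

theorem Coherator.toTower_admissible (C : Coherator) : C.toTower.Admissible :=
  fun f g h _ => C.contractible f g h

theorem Ext.eq_of_incl (E : Ext) {S : Table} {Z : E.Obj} {a b : E.i.obj S ⟶ Z}
    (h : ∀ p, E.i.map (incl S p) ≫ a = E.i.map (incl S p) ≫ b) : a = b := by
  refine (E.sums S Z (fun p => E.i.map (incl S p) ≫ b) fun p => ?_).unique h fun p => rfl
  rw [← Category.assoc, ← Category.assoc, ← E.i.map_comp, ← E.i.map_comp,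
    show side true (S.lt_left p) ≫ incl S p.castSucc = side false (S.lt_right p) ≫ incl S p.succ
      from Glob.hom_ext_pre fun _ c => Quot.sound (Table.Rel.glue p c.2)]

namespace Exist

variable {E : Ext}

/-- Agreement on the structural cells of dimension at most `n`. -/
def Low (E : Ext) (n : ℕ) {U Z : E.Obj} (a b : U ⟶ Z) : Prop :=
  ∀ k, k ≤ n → ∀ (T : Table) (g : disc k ⟶ T) (h : E.i.obj T = U),
    E.i.map g ≫ eqToHom h ≫ a = E.i.map g ≫ eqToHom h ≫ b

/-- Precomposition preserves agreement. -/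
def Good (E : Ext) (n : ℕ) {U V : E.Obj} (φ : U ⟶ V) : Prop :=
  ∀ (Z : E.Obj) (a b : V ⟶ Z), Low E n a b → Low E n (φ ≫ a) (φ ≫ b)

theorem Low.cell {n k : ℕ} (hk : k ≤ n) {S : Table} {Z : E.Obj} {a b : E.i.obj S ⟶ Z}
    (h : Low E n a b) (g : disc k ⟶ S) : E.i.map g ≫ a = E.i.map g ≫ b := by
  simpa using h k hk S g rfl

theorem low_of_cells {n : ℕ} {S : Table} {Z : E.Obj} {a b : E.i.obj S ⟶ Z}
    (h : ∀ k, k ≤ n → ∀ g : disc k ⟶ S, E.i.map g ≫ a = E.i.map g ≫ b) : Low E n a b := by
  intro k hk T g hT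
  obtain rfl := E.obj_bij.1 hT
  simpa using h k hk g

theorem Good.comp {n : ℕ} {U V Y : E.Obj} {φ : U ⟶ V} {ψ : V ⟶ Y} (hφ : Good E n φ)
    (hψ : Good E n ψ) : Good E n (φ ≫ ψ) := fun Z a b h => by
  simpa only [Category.assoc] using hφ Z _ _ (hψ Z a b h)

theorem good_eqToHom {n : ℕ} {U V : E.Obj} (e : U = V) : Good E n (eqToHom e) := by
  subst e
  intro Z a b h
  simpa using h

theorem Good.of_heq {n : ℕ} {U V U' V' : E.Obj} (eU : U = U') (eV : V = V') {φ : U ⟶ V}
    {ψ : U' ⟶ V'} (e : HEq φ ψ) (h : Good E n φ) : Good E n ψ := by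
  subst eU eV
  rwa [← eq_of_heq e]

theorem good_map {n : ℕ} {S T : Table} (g : S ⟶ T) : Good E n (E.i.map g) := by
  intro Z a b h
  refine low_of_cells fun k hk g' => ?_
  rw [← Category.assoc, ← Category.assoc, ← E.i.map_comp]
  exact h.cell hk _

/-- A disc of dimension above `n` with good sides in a target of dimension at most one more. -/
theorem good_lift {n m : ℕ} {T : Table} (hT : T.dim ≤ m + 1) (h : E.M (disc (m + 1)) T)
    (hs : ∀ e, Good E n (E.face e m ≫ h)) : Good E n h := by
  intro Z a b hab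
  rcases Nat.lt_or_ge m n with hmn | hmn
  · rw [E.eq_of_incl (a := a) (b := b) fun p => hab.cell
      ((Finset.le_sup (f := T.top) (Finset.mem_univ p)).trans (hT.trans hmn)) (incl T p)]
    exact low_of_cells fun k hk g => rfl
  · refine low_of_cells fun k hk g => ?_
    rcases Glob.disc_hom_cases g with ⟨p, hp, -⟩ | ⟨p, e, hp, rfl⟩
    · change k = m + 1 at hp
      omega
    · obtain rfl : p = 0 := Fin.ext (Nat.lt_one_iff.1 p.isLt)
      have hi : incl (disc (m + 1)) 0 = 𝟙 (disc (m + 1)) :=
        Glob.hom_ext_pre fun _ c => congrArg (Quot.mk _) (Glob.disc_pre_eq c).symm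
      change k < m + 1 at hp
      obtain ⟨e', g', hg'⟩ : ∃ (e' : Bool) (g' : disc k ⟶ disc m),
          side e hp = g' ≫ side e' m.lt_succ_self := by
        rcases Nat.lt_succ_iff_lt_or_eq.1 hp with hkm | rfl
        · exact ⟨false, side e hkm, Glob.side_succ e hkm⟩
        · exact ⟨e, 𝟙 _, (Category.id_comp _).symm⟩
      have e1 : E.i.map (side e hp ≫ incl (disc (m + 1)) 0) = E.i.map g' ≫ E.face e' m := by
        rw [show side e hp ≫ incl (disc (m + 1)) 0 = side e hp from
          (congrArg (side e hp ≫ ·) hi).trans (Category.comp_id _), hg', E.i.map_comp]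
      have key := (hs e' Z a b hab).cell hk g'
      simp only [Category.assoc] at key
      have hc : ∀ c : E.i.obj T ⟶ Z, E.i.map (side e hp ≫ incl (disc (m + 1)) 0) ≫ h ≫ c =
          E.i.map g' ≫ E.face e' m ≫ h ≫ c := fun c =>
        (congrArg (· ≫ h ≫ c) e1).trans (Category.assoc _ _ _)
      exact (hc a).trans (key.trans (hc b).symm)

/-- The wide subcategory of good maps. -/
structure Wide (E : Ext) {X : Type} [SmallCategory X] (G : X ⥤ E.Obj) (n : ℕ) : Type 1 where
  obj : X

instance {X : Type} [SmallCategory X] (G : X ⥤ E.Obj) (n : ℕ) :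
    Category.{0} (Wide E G n) where
  Hom x y := {φ : x.obj ⟶ y.obj // Good E n (G.map φ)}
  id x := ⟨𝟙 _, fun Z a b h => by simpa using h⟩
  comp f g := ⟨f.1 ≫ g.1, by rw [G.map_comp]; exact f.2.comp g.2⟩
  id_comp f := Subtype.ext (Category.id_comp _)
  comp_id f := Subtype.ext (Category.comp_id _)
  assoc f g h := Subtype.ext (Category.assoc _ _ _)

/-- Forgetting goodness. -/
def Wide.out {X : Type} [SmallCategory X] (G : X ⥤ E.Obj) (n : ℕ) :
    Wide E G n ⥤ ULift.{1} X where
  obj x := ⟨x.obj⟩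
  map f := (ULift.upFunctor.{0, 0, 1}).map f.1
  map_id x := (ULift.upFunctor.{0, 0, 1}).map_id x.obj
  map_comp f g := (ULift.upFunctor.{0, 0, 1}).map_comp f.1 g.1

/-- A functor with good images lands in the wide subcategory. -/
def Wide.inn {X Y : Type} [SmallCategory X] [SmallCategory Y] {G : X ⥤ E.Obj} {n : ℕ}
    (F : Y ⥤ X) (hF : ∀ {a b : Y} (φ : a ⟶ b), Good E n (G.map (F.map φ))) :
    Y ⥤ Wide E G n where
  obj y := ⟨F.obj y⟩
  map φ := ⟨F.map φ, hF φ⟩
  map_id y := Subtype.ext (F.map_id y)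
  map_comp f g := Subtype.ext (F.map_comp f g)

theorem Wide.inn_congr {X Y : Type} [SmallCategory X] [SmallCategory Y] {G : X ⥤ E.Obj} {n : ℕ}
    {F F' : Y ⥤ X} (e : F = F') (hF : ∀ {a b : Y} (φ : a ⟶ b), Good E n (G.map (F.map φ)))
    (hF' : ∀ {a b : Y} (φ : a ⟶ b), Good E n (G.map (F'.map φ))) :
    Wide.inn (G := G) (n := n) F hF = Wide.inn (G := G) (n := n) F' hF' := by
  subst e
  rfl

theorem good_of_section {X : Type} [SmallCategory X] {G : X ⥤ E.Obj} {n : ℕ}
    (F : X ⥤ Wide E G n) (h : F ⋙ Wide.out G n = ULift.upFunctor.{0, 0, 1}) {a b : X}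
    (φ : a ⟶ b) : Good E n (G.map φ) := by
  have ha : (F.obj a).obj = a := congrArg ULift.down (CategoryTheory.Functor.congr_obj h a)
  have hb : (F.obj b).obj = b := congrArg ULift.down (CategoryTheory.Functor.congr_obj h b)
  have h1 : HEq ((F ⋙ Wide.out G n).map φ) ((ULift.upFunctor.{0, 0, 1}).map φ) := by rw [h]
  have h2 : HEq (F.map φ).1 φ := h1
  refine Good.of_heq (congrArg G.obj ha) (congrArg G.obj hb) ?_ (F.map φ).2
  congr 1

variable (W : Tower) {n : ℕ}

theorem good_zero {a b : (W.stage 0).Obj} (φ : a ⟶ b) : Good W.C n ((W.into 0).map φ) := by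
  have := W.zero_full
  obtain ⟨S, rfl⟩ := (W.stage 0).obj_bij.2 a
  obtain ⟨T, rfl⟩ := (W.stage 0).obj_bij.2 b
  obtain ⟨g, rfl⟩ := (W.stage 0).i.map_surjective φ
  have h := CategoryTheory.Functor.congr_hom (W.into_comm 0) g
  refine Eq.substr h ?_
  exact (good_eqToHom _).comp ((good_map g).comp (good_eqToHom _))

theorem good_step (k : ℕ)
    (ih : ∀ {a b : (W.stage k).Obj} (φ : a ⟶ b), Good W.C n ((W.into k).map φ))
    {a b : (W.stage (k + 1)).Obj} (φ : a ⟶ b) : Good W.C n ((W.into (k + 1)).map φ) := by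
  let A := W.step k
  let G := W.into (k + 1)
  have hJ : ∀ T, A.J.obj ((W.stage k).i.obj T) = (W.stage (k + 1)).i.obj T :=
    CategoryTheory.Functor.congr_obj A.comm
  have hG : ∀ T, G.obj ((W.stage (k + 1)).i.obj T) = W.C.i.obj T :=
    CategoryTheory.Functor.congr_obj (W.into_comm (k + 1))
  have hF : ∀ {a b : (W.stage k).Obj} (ψ : a ⟶ b), Good W.C n (G.map (A.J.map ψ)) := by
    intro a b ψ
    refine Eq.substr (CategoryTheory.Functor.congr_hom (W.into_step k) ψ) ?_
    exact (good_eqToHom _).comp ((ih ψ).comp (good_eqToHom _))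
  let F : (W.stage k).Obj ⥤ Wide W.C G n := Wide.inn A.J hF
  have hsums : PreservesSums ((W.stage k).i ⋙ F) := by
    intro T Z f hf
    have hJs : PreservesSums ((W.stage k).i ⋙ A.J) := A.comm ▸ (W.stage (k + 1)).sums
    obtain ⟨h, hh, hu⟩ := hJs T Z.obj (fun p => (f p).1) fun p => congrArg Subtype.val (hf p)
    have hgood : Good W.C n (G.map h) := by
      intro Y a b hab
      intro j hj S g hS
      obtain rfl : S = T := W.C.obj_bij.1
        (hS.trans ((congrArg G.obj (hJ T)).trans (hG T)))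
      have hp : ∀ p, G.map (A.J.map ((W.stage k).i.map (incl S p))) ≫ G.map h = G.map (f p).1 :=
        fun p => (G.map_comp _ _).symm.trans (congrArg G.map (hh p))
      have hmap : ∀ p, W.C.i.map (incl S p) ≫ eqToHom hS =
          eqToHom (((hG _).symm.trans (congrArg G.obj (hJ _).symm))) ≫
            G.map (A.J.map ((W.stage k).i.map (incl S p))) := by
        intro p
        have e1 := CategoryTheory.Functor.congr_hom A.comm (incl S p)
        have e2 := CategoryTheory.Functor.congr_hom (W.into_comm (k + 1)) (incl S p)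
        simp only [Functor.comp_map] at e1 e2
        rw [e1, G.map_comp, G.map_comp, e2]
        simp [eqToHom_map]
      have main : ∀ (p : Fin (S.len + 1)) (g' : disc j ⟶ disc (S.top p)),
          W.C.i.map (g' ≫ incl S p) ≫ eqToHom hS ≫ G.map h ≫ a =
            W.C.i.map (g' ≫ incl S p) ≫ eqToHom hS ≫ G.map h ≫ b := by
        intro p g'
        have key := ((good_eqToHom ((hG _).symm.trans (congrArg G.obj (hJ _).symm))).comp
          (f p).2 Y a b hab).cell hj g'
        simp only [Category.assoc, ← hp p] at key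
        simp only [W.C.i.map_comp, Category.assoc, reassoc_of% (hmap p)]
        exact key
      rcases Glob.disc_hom_cases g with ⟨p, hp', rfl⟩ | ⟨p, e, hp', rfl⟩
      · exact main p _
      · exact main p _
    exact ⟨⟨h, hgood⟩, fun p => Subtype.ext (hh p),
      fun h' h'' => Subtype.ext (hu h'.1 fun p => congrArg Subtype.val (h'' p))⟩
  let E := W.stage k
  have hlift : ∀ a : A.A, Good W.C n (G.map (A.lift a)) := by
    intro a
    let l : W.C.M (disc (a.1.n + 1)) a.1.T :=
      eqToHom (hG _).symm ≫ G.map (A.lift a) ≫ eqToHom (hG _)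
    have hl : Good W.C n l := by
      refine good_lift a.1.dim_le l fun e => ?_
      have hface : W.C.face e a.1.n = eqToHom (hG _).symm ≫
          G.map ((W.stage (k + 1)).face e a.1.n) ≫ eqToHom (hG _) :=
        (conj_eqToHom_iff_heq _ _ (hG _).symm (hG _).symm).2
          (Glob.heq_map_functor (W.into_comm (k + 1)) (side e a.1.n.lt_succ_self)).symm
      have e3 : W.C.face e a.1.n ≫ l = eqToHom (hG _).symm ≫
          G.map ((W.stage (k + 1)).face e a.1.n ≫ A.lift a) ≫ eqToHom (hG _) := by
        simp [hface, l]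
      rw [e3]
      refine (good_eqToHom _).comp (Good.comp ?_ (good_eqToHom _))
      cases e
      · exact Good.of_heq (congrArg G.obj (hJ _)) (congrArg G.obj (hJ _))
          (by congr 1 <;> first | exact hJ _ | exact (A.lift_src a).symm) (hF a.1.f)
      · exact Good.of_heq (congrArg G.obj (hJ _)) (congrArg G.obj (hJ _))
          (by congr 1 <;> first | exact hJ _ | exact (A.lift_tgt a).symm) (hF a.1.g)
    have e4 : G.map (A.lift a) = eqToHom (hG _) ≫ l ≫ eqToHom (hG _).symm := by simp [l]
    rw [e4]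
    exact (good_eqToHom _).comp (hl.comp (good_eqToHom _))
  let cast : ∀ a : A.A, a.1.Target F := fun a =>
    ⟨eqToHom (hJ _) ≫ A.lift a ≫ eqToHom (hJ _).symm,
      Good.of_heq (congrArg G.obj (hJ _).symm) (congrArg G.obj (hJ _).symm)
        (Glob.heq_map_of_heq G (hJ _).symm (hJ _).symm
          ((eqToHom_comp_heq _ _).trans (comp_eqToHom_heq _ _)).symm) (hlift a)⟩
  have hcast : ∀ a : A.A, a.1.IsLiftTo F (cast a) := by
    intro a
    have he : ∀ e (q : E.M (disc a.1.n) a.1.T),
        HEq ((W.stage (k + 1)).face e a.1.n ≫ A.lift a) (A.J.map q) →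
          A.J.map (E.face e a.1.n) ≫ eqToHom (hJ _) ≫ A.lift a ≫ eqToHom (hJ _).symm =
            A.J.map q := by
      intro e q hq
      have e1 := CategoryTheory.Functor.congr_hom A.comm (side e a.1.n.lt_succ_self)
      simp only [Functor.comp_map] at e1
      have e2 : (W.stage (k + 1)).face e a.1.n ≫ A.lift a =
          eqToHom (hJ _).symm ≫ A.J.map q ≫ eqToHom (hJ _) :=
        (conj_eqToHom_iff_heq _ _ (hJ _).symm (hJ _).symm).2 hq
      simp [Ext.face, e1, E, reassoc_of% e2]
    exact ⟨Subtype.ext (he false _ (A.lift_src a)), Subtype.ext (he true _ (A.lift_tgt a))⟩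
  obtain ⟨F', ⟨hF', hFl⟩, -⟩ := A.universal (Wide W.C G n) F hsums cast hcast
  have hsums' : PreservesSums ((W.stage k).i ⋙ (A.J ⋙ ULift.upFunctor.{0, 0, 1})) := by
    rw [← Functor.assoc, A.comm]
    intro T Z f hf
    exact (W.stage (k + 1)).sums T Z.down f hf
  obtain ⟨F0, -, hF0⟩ := A.universal (ULift.{1} (W.stage (k + 1)).Obj)
    (A.J ⋙ ULift.upFunctor.{0, 0, 1}) hsums'
    (fun a => (ULift.upFunctor.{0, 0, 1}).map (cast a).1)
    (fun a => ⟨congrArg (ULift.upFunctor.{0, 0, 1}).map (congrArg Subtype.val (hcast a).1),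
      congrArg (ULift.upFunctor.{0, 0, 1}).map (congrArg Subtype.val (hcast a).2)⟩)
  have h1 := hF0 (F' ⋙ Wide.out G n) ⟨by
      rw [← Functor.assoc, hF']
      rfl, fun a => by
      have e1 : ∀ T, F'.obj ((W.stage (k + 1)).i.obj T) = F.obj (E.i.obj T) := fun T =>
        (congrArg F'.obj (hJ T).symm).trans (CategoryTheory.Functor.congr_obj hF' _)
      show HEq ((Wide.out G n).map (F'.map (A.lift a))) ((Wide.out G n).map (cast a))
      congr 1
      · exact e1 _
      · exact e1 _
      · exact hFl a⟩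
  have h2 := hF0 (ULift.upFunctor.{0, 0, 1}) ⟨rfl, fun a => by
      show HEq (A.lift a) (cast a).1
      exact (((eqToHom_comp_heq _ _).trans (comp_eqToHom_heq _ _))).symm⟩
  exact good_of_section F' (h1.trans h2.symm) φ

theorem good_stage : ∀ (k : ℕ) {a b : (W.stage k).Obj} (φ : a ⟶ b),
    Good W.C n ((W.into k).map φ)
  | 0, _, _, φ => good_zero W φ
  | k + 1, _, _, φ => good_step W k (fun ψ => good_stage k ψ) φ

theorem good_all {a b : W.C.Obj} (φ : a ⟶ b) : Good W.C n φ := by
  let F : ∀ k, (W.stage k).Obj ⥤ Wide W.C (𝟭 W.C.Obj) n := fun k =>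
    Wide.inn (W.into k) fun ψ => good_stage W k ψ
  have hFk : ∀ k, (W.step k).J ⋙ F (k + 1) = F k := fun k =>
    Wide.inn_congr (W.into_step k) (F := (W.step k).J ⋙ W.into (k + 1))
      (fun ψ => good_stage W (k + 1) _) _
  obtain ⟨F', hF', -⟩ := W.colimit _ F hFk
  obtain ⟨F0, -, hF0⟩ := W.colimit (ULift.{1} W.C.Obj)
    (fun k => W.into k ⋙ ULift.upFunctor.{0, 0, 1})
    (fun k => by rw [← Functor.assoc, W.into_step])
  have h1 := hF0 (F' ⋙ Wide.out _ n) fun k => by
    rw [← Functor.assoc, hF' k]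
    rfl
  have h2 := hF0 (ULift.upFunctor.{0, 0, 1}) fun k => rfl
  exact good_of_section (G := 𝟭 W.C.Obj) F' (h1.trans h2.symm) φ

/-- Maps out of a globular sum agreeing on the structural cells of dimension at most `n` agree
after composition with every cell of dimension `n`. -/
theorem comp_eq_of_low {S : Table} {Z : W.C.Obj} (f : W.C.M (disc n) S) {a b : W.C.i.obj S ⟶ Z}
    (h : Low W.C n a b) : f ≫ a = f ≫ b := by
  simpa using (good_all W f Z a b h).cell le_rfl (𝟙 (disc n))

end Exist

end

end Vale.Agent.P259
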