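import Vale.Agent.P259.Free.Reflect

/-!
# P259, existence: forcing representable presheaves to be local

For a small category and a small family of maps of presheaves, the universal category with the
same objects in which every representable presheaf is local for the family.
-/

open CategoryTheory Opposite

universe u v

noncomputable section

namespace P259.Exist

open Vale.Agent.P259.Free

variable {P : Type u} [SmallCategory P] {ι : Type u} {A B : ι → (Pᵒᵖ ⥤ Type u)}
  (w : ∀ i, A i ⟶ B i)

/-- The local reflection of a representable presheaf. -/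
def locObj (T : P) : Pᵒᵖ ⥤ Type u := (exists_reflection w (yoneda.obj T)).choose

/-- The unit of the reflection. -/
def locUnit (T : P) : yoneda.obj T ⟶ locObj w T :=
  (exists_reflection w (yoneda.obj T)).choose_spec.choose

theorem locObj_isLoc (T : P) : IsLoc w (locObj w T) :=
  (exists_reflection w (yoneda.obj T)).choose_spec.choose_spec.1

theorem locUnit_bijective (T : P) {Z : Pᵒᵖ ⥤ Type u} (hZ : IsLoc w Z) :
    Function.Bijective fun g : locObj w T ⟶ Z => locUnit w T ≫ g :=
  (exists_reflection w (yoneda.obj T)).choose_spec.choose_spec.2 Z hZ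

/-- The element of the reflection given by the identity. -/
def locGen (T : P) : (locObj w T).obj (op T) := (locUnit w T).app (op T) (𝟙 T)

theorem locUnit_app {S T : P} (f : S ⟶ T) :
    (locUnit w T).app (op S) f = (locObj w T).map f.op (locGen w T) := by
  have h := NatTrans.naturality_apply (locUnit w T) f.op (𝟙 T)
  simp only [locGen]
  rw [← h]
  simp

/-- An element of a local presheaf extends uniquely along the generator. -/
theorem existsUnique_ext (T : P) {Z : Pᵒᵖ ⥤ Type u} (hZ : IsLoc w Z) (z : Z.obj (op T)) :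
    ∃! g : locObj w T ⟶ Z, g.app (op T) (locGen w T) = z := by
  have hiff : ∀ g : locObj w T ⟶ Z,
      g.app (op T) (locGen w T) = z ↔ locUnit w T ≫ g = yonedaEquiv.symm z := by
    intro g
    rw [← yonedaEquiv.apply_eq_iff_eq, Equiv.apply_symm_apply]
    exact Iff.rfl
  obtain ⟨g, hg⟩ := (locUnit_bijective w T hZ).2 (yonedaEquiv.symm z)
  refine ⟨g, (hiff g).2 hg, fun g' hg' => (locUnit_bijective w T hZ).1 ?_⟩
  exact ((hiff g').1 hg').trans hg.symm

/-- The extension of an element. -/
def ext (T : P) {Z : Pᵒᵖ ⥤ Type u} (hZ : IsLoc w Z) (z : Z.obj (op T)) : locObj w T ⟶ Z :=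
  (existsUnique_ext w T hZ z).choose

theorem ext_gen (T : P) {Z : Pᵒᵖ ⥤ Type u} (hZ : IsLoc w Z) (z : Z.obj (op T)) :
    (ext w T hZ z).app (op T) (locGen w T) = z :=
  (existsUnique_ext w T hZ z).choose_spec.1

theorem ext_unique {T : P} {Z : Pᵒᵖ ⥤ Type u} (hZ : IsLoc w Z) {g g' : locObj w T ⟶ Z}
    (h : g.app (op T) (locGen w T) = g'.app (op T) (locGen w T)) : g = g' :=
  (existsUnique_ext w T hZ _).unique h rfl

/-- The category with local representables; its objects are those of the given one. -/
def Cl (_w : ∀ i, A i ⟶ B i) : Type u := P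

/-- The object of the new category given by an object. -/
def Cl.of (T : P) : Cl w := T

/-- The object of the given category under an object of the new one. -/
def Cl.un (T : Cl w) : P := T

instance clCategory : SmallCategory (Cl w) where
  Hom S T := (locObj w (Cl.un w T)).obj (op (Cl.un w S))
  id T := locGen w (Cl.un w T)
  comp {S T U} a b := (ext w (Cl.un w T) (locObj_isLoc w _) b).app (op (Cl.un w S)) a
  id_comp {S T} a := ext_gen w _ _ a
  comp_id {S T} a := by
    have h : ext w (Cl.un w T) (locObj_isLoc w _) (locGen w (Cl.un w T)) = 𝟙 _ :=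
      ext_unique w (locObj_isLoc w _) (by rw [ext_gen]; rfl)
    rw [h]
    rfl
  assoc {S T U V} a b c := by
    have h : ext w (Cl.un w T) (locObj_isLoc w _) b ≫ ext w (Cl.un w U) (locObj_isLoc w _) c
        = ext w (Cl.un w T) (locObj_isLoc w _)
          ((ext w (Cl.un w U) (locObj_isLoc w (Cl.un w V)) c).app (op (Cl.un w T)) b) := by
      apply ext_unique w (locObj_isLoc w _)
      rw [ext_gen]
      show (ext w (Cl.un w U) (locObj_isLoc w _) c).app _
        ((ext w (Cl.un w T) (locObj_isLoc w _) b).app _ (locGen w (Cl.un w T))) = _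
      rw [ext_gen]
    rw [← h]
    rfl

theorem Cl.comp_eq {S T U : Cl w} (a : S ⟶ T) (b : T ⟶ U) :
    a ≫ b = (ext w (Cl.un w T) (locObj_isLoc w _) b).app (op (Cl.un w S)) a :=
  rfl

theorem locMap_comp {S T U : P} (f : S ⟶ T) (b : Cl.of w T ⟶ Cl.of w U) :
    (locObj w U).map f.op b
      = (ext w T (locObj_isLoc w U) b).app (op S) ((locObj w T).map f.op (locGen w T)) := by
  exact ((NatTrans.naturality_apply (ext w T (locObj_isLoc w U) b) f.op (locGen w T)).trans
    (congrArg ((locObj w U).map f.op) (ext_gen w T (locObj_isLoc w U) b))).symm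

/-- The given category maps to the new one. -/
def Cl.incl : P ⥤ Cl w where
  obj T := Cl.of w T
  map {S T} f := (locObj w T).map f.op (locGen w T)
  map_id T := by simp; rfl
  map_comp {S T U} f g := by
    rw [op_comp, Functor.map_comp_apply]
    exact locMap_comp w f _

theorem Cl.incl_obj_bijective : Function.Bijective (Cl.incl w).obj :=
  Function.bijective_id

theorem Cl.incl_comp {S T U : P} (f : S ⟶ T) (b : Cl.of w T ⟶ Cl.of w U) :
    (Cl.incl w).map f ≫ b = (locObj w U).map f.op b :=
  (locMap_comp w f b).symm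

/-- The new representables, restricted, are the reflections, hence local. -/
def Cl.homIso (U : P) : (Cl.incl w).op ⋙ yoneda.obj (Cl.of w U) ≅ locObj w U :=
  NatIso.ofComponents (fun S => Iso.refl _) fun {S S'} f => by
    ext b
    exact Cl.incl_comp w f.unop b

section Lift

variable {E : Type v} [Category.{u} E] (G : P ⥤ E)
  (hG : ∀ T : P, IsLoc w (G.op ⋙ yoneda.obj (G.obj T)))

/-- The functor out of the new category. -/
def Cl.lift : Cl w ⥤ E where
  obj T := G.obj (Cl.un w T)
  map {S T} a := (ext w (Cl.un w T) (hG _) (𝟙 (G.obj (Cl.un w T)))).app (op (Cl.un w S)) a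
  map_id T := ext_gen w _ _ _
  map_comp {S T U} a b := by
    have h : ext w (Cl.un w T) (locObj_isLoc w _) b ≫ ext w (Cl.un w U) (hG _) (𝟙 _)
        = ext w (Cl.un w T) (hG _) (𝟙 _) ≫ Functor.whiskerLeft G.op (yoneda.map
          ((ext w (Cl.un w U) (hG _) (𝟙 _)).app (op (Cl.un w T)) b)) := by
      apply ext_unique w (hG _)
      show (ext w (Cl.un w U) (hG _) (𝟙 _)).app _
          ((ext w (Cl.un w T) (locObj_isLoc w _) b).app _ (locGen w (Cl.un w T))) =
        (ext w (Cl.un w T) (hG _) (𝟙 _)).app _ (locGen w (Cl.un w T)) ≫ _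
      rw [ext_gen, ext_gen]
      exact (Category.id_comp _).symm
    exact congrArg (fun k : locObj w (Cl.un w T) ⟶ _ => k.app (op (Cl.un w S)) a) h

theorem Cl.incl_lift : Cl.incl w ⋙ Cl.lift w G hG = G :=
  CategoryTheory.Functor.hext (fun _ => rfl) fun S T f => heq_of_eq (by
    show (ext w T (hG T) (𝟙 _)).app (op S) ((locObj w T).map f.op (locGen w T)) = G.map f
    rw [NatTrans.naturality_apply, ext_gen]
    exact Category.comp_id _)

end Lift

/-- A functor out of the new category is determined on the given one, if the target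
representables are local. -/
theorem Cl.ext_functor {E : Type v} [Category.{u} E] (F F' : Cl w ⥤ E)
    (hF : ∀ T : P, IsLoc w ((Cl.incl w ⋙ F).op ⋙ yoneda.obj (F.obj (Cl.of w T))))
    (h : Cl.incl w ⋙ F = Cl.incl w ⋙ F') : F = F' := by
  have key : ∀ H : Cl w ⥤ E,
      (hH : ∀ T : P, IsLoc w ((Cl.incl w ⋙ H).op ⋙ yoneda.obj (H.obj (Cl.of w T)))) →
      H = Cl.lift w (Cl.incl w ⋙ H) hH := by
    intro H hH
    refine CategoryTheory.Functor.hext (fun _ => rfl) fun S T a => heq_of_eq ?_
    let β : locObj w (Cl.un w T) ⟶ (Cl.incl w ⋙ H).op ⋙ yoneda.obj (H.obj T) :=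
      { app := fun U => TypeCat.ofHom fun b => H.map (X := Cl.of w U.unop) (Y := T) b
        naturality := fun U V f => by
          ext b
          exact (congrArg H.map (Cl.incl_comp w f.unop b).symm).trans
            (H.map_comp ((Cl.incl w).map f.unop) b) }
    have hβ : β = ext w (Cl.un w T) (hH _) (𝟙 _) := by
      apply ext_unique w (hH _)
      exact (H.map_id T).trans (ext_gen w (Cl.un w T) (hH _) (𝟙 _)).symm
    show H.map a = _
    exact congrArg (fun k : locObj w (Cl.un w T) ⟶ _ => k.app (op (Cl.un w S)) a) hβ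
  have gen : ∀ (G G' : P ⥤ E) (e : G = G') (hG) (hG'),
      Cl.lift w G hG = Cl.lift w G' hG' := by
    intro G G' e hG hG'
    subst e
    rfl
  have hF' : ∀ T : P, IsLoc w ((Cl.incl w ⋙ F').op ⋙ yoneda.obj (F'.obj (Cl.of w T))) := by
    intro T
    have := hF T
    change IsLoc w ((Cl.incl w ⋙ F).op ⋙ yoneda.obj ((Cl.incl w ⋙ F).obj T)) at this
    rw [h] at this
    exact this
  rw [key F hF, key F' hF']
  exact gen _ _ h _ _

end P259.Exist
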