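import Vale.Agent.P259.Free.Reflect
import Vale.Agent.P259.Model.Linked

/-!
# P259, existence: presheaves with the gluing property for a system of globular sums
-/

namespace Vale.Agent.P259.Exist

open CategoryTheory Opposite Free

noncomputable section

variable {P : Type} [SmallCategory P]

/-- A presheaf sends the globular sums of a system to iterated fibre products. -/
def Glues (j : Table ⥤ P) (X : Pᵒᵖ ⥤ Type) : Prop :=
  ∀ (T : Table) (c : ∀ p, X.obj (op (j.obj (disc (T.top p))))),
    (∀ p : Fin T.len, X.map (j.map (side true (T.lt_left p))).op (c p.castSucc) =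
      X.map (j.map (side false (T.lt_right p))).op (c p.succ)) →
    ∃! x : X.obj (op (j.obj T)), ∀ p, X.map (j.map (incl T p)).op x = c p

namespace Sums

variable (j : Table ⥤ P)

/-- Pieces of the glued discs of a globular sum, before gluing. -/
abbrev SumPre (T : Table) (U : P) : Type :=
  Σ p : Fin (T.len + 1), (U ⟶ j.obj (disc (T.top p)))

/-- The gluing of the discs. -/
inductive SumRel (T : Table) (U : P) : SumPre j T U → SumPre j T U → Prop
  | glue (p : Fin T.len) (g : U ⟶ j.obj (disc (T.bot p))) :
      SumRel T U ⟨p.castSucc, g ≫ j.map (side true (T.lt_left p))⟩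
        ⟨p.succ, g ≫ j.map (side false (T.lt_right p))⟩

theorem sumRel_map (T : Table) {U V : P} (f : V ⟶ U) {a b : SumPre j T U}
    (h : SumRel j T U a b) : SumRel j T V ⟨a.1, f ≫ a.2⟩ ⟨b.1, f ≫ b.2⟩ := by
  cases h with
  | glue p g =>
    dsimp only
    rw [← Category.assoc, ← Category.assoc]
    exact SumRel.glue p (f ≫ g)

/-- The discs of a globular sum, glued as presheaves. -/
def sumPsh (T : Table) : Pᵒᵖ ⥤ Type where
  obj U := Quot (SumRel j T U.unop)
  map f := TypeCat.ofHom (Quot.map (fun a => ⟨a.1, f.unop ≫ a.2⟩) fun _ _ h =>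
    sumRel_map j T f.unop h)
  map_id U := by
    refine ConcreteCategory.hom_ext _ _ fun a => ?_
    induction a using Quot.ind with
    | _ a => exact congrArg (Quot.mk _) (Sigma.ext rfl (heq_of_eq (Category.id_comp a.2)))
  map_comp f g := by
    refine ConcreteCategory.hom_ext _ _ fun a => ?_
    induction a using Quot.ind with
    | _ a =>
      exact congrArg (Quot.mk _) (Sigma.ext rfl (heq_of_eq (Category.assoc g.unop f.unop a.2)))

theorem sumMap_rel (T : Table) {U : P} {a b : SumPre j T U} (h : SumRel j T U a b) :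
    a.2 ≫ j.map (incl T a.1) = b.2 ≫ j.map (incl T b.1) := by
  cases h with
  | glue p g =>
    simp only [Category.assoc]
    rw [← j.map_comp, ← j.map_comp, side_incl_glue T p]

/-- The glued discs go into the representable. -/
def sumMap (T : Table) : sumPsh j T ⟶ yoneda.obj (j.obj T) where
  app U := TypeCat.ofHom (Quot.lift (fun a => a.2 ≫ j.map (incl T a.1)) fun _ _ h =>
    sumMap_rel j T h)
  naturality U V f := by
    refine ConcreteCategory.hom_ext _ _ fun a => ?_
    induction a using Quot.ind with
    | _ a => exact Category.assoc f.unop a.2 _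

/-- Being a model is being local for the inclusions of the glued discs. -/
theorem isLoc_iff (X : Pᵒᵖ ⥤ Type) : IsLoc (sumMap j) X ↔ Glues j X := by
  constructor
  · intro hX T c hc
    let h : sumPsh j T ⟶ X :=
      { app := fun U => TypeCat.ofHom (Quot.lift (fun a => X.map a.2.op (c a.1)) fun a b r => by
          cases r with
          | glue p g =>
            simp only [op_comp, Functor.map_comp]
            exact congrArg (X.map g.op) (hc p))
        naturality := fun U V f => by
          refine ConcreteCategory.hom_ext _ _ fun a => ?_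
          induction a using Quot.ind with
          | _ a =>
            show X.map (f.unop ≫ a.2).op (c a.1) = X.map f (X.map a.2.op (c a.1))
            simp only [op_comp, Functor.map_comp]
            rfl }
    obtain ⟨g, hg⟩ := (hX T).2 h
    refine ⟨yonedaEquiv g, fun p => ?_, fun x hx => ?_⟩
    · have := ConcreteCategory.congr_hom (NatTrans.congr_app hg (op (j.obj (disc (T.top p)))))
        (Quot.mk _ ⟨p, 𝟙 _⟩)
      refine ((yonedaEquiv_naturality g _).trans ?_).trans (this.trans ?_)
      · show g.app _ (𝟙 _ ≫ j.map (incl T p)) = g.app _ (𝟙 _ ≫ j.map (incl T p))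
        rfl
      · show X.map (𝟙 _ : j.obj (disc (T.top p)) ⟶ _).op (c p) = c p
        simp
    · have hx' : yonedaEquiv.symm x = g := by
        refine (hX T).1 ?_
        show sumMap j T ≫ yonedaEquiv.symm x = sumMap j T ≫ g
        rw [show sumMap j T ≫ g = h from hg]
        refine NatTrans.ext (funext fun U => ConcreteCategory.hom_ext _ _ fun a => ?_)
        induction a using Quot.ind with
        | _ a =>
          show X.map (a.2 ≫ j.map (incl T a.1)).op x = X.map a.2.op (c a.1)
          simp only [op_comp, Functor.map_comp]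
          exact congrArg (X.map a.2.op) (hx a.1)
      rw [← hx', Equiv.apply_symm_apply]
  · intro hX T
    have val : ∀ (g : yoneda.obj (j.obj T) ⟶ X) p,
        X.map (j.map (incl T p)).op (yonedaEquiv g) =
          (sumMap j T ≫ g).app _ (Quot.mk _ ⟨p, 𝟙 _⟩) := fun g p => by
      refine (yonedaEquiv_naturality g _).trans ?_
      show g.app _ (𝟙 _ ≫ j.map (incl T p)) = g.app _ (𝟙 _ ≫ j.map (incl T p))
      rfl
    have glued : ∀ (h : sumPsh j T ⟶ X) (p : Fin T.len),
        X.map (j.map (side true (T.lt_left p))).op (h.app _ (Quot.mk _ ⟨p.castSucc, 𝟙 _⟩)) =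
          X.map (j.map (side false (T.lt_right p))).op (h.app _ (Quot.mk _ ⟨p.succ, 𝟙 _⟩)) := by
      intro h p
      have n1 := ConcreteCategory.congr_hom (h.naturality (j.map (side true (T.lt_left p))).op)
        (Quot.mk _ ⟨p.castSucc, 𝟙 _⟩)
      have n2 := ConcreteCategory.congr_hom (h.naturality (j.map (side false (T.lt_right p))).op)
        (Quot.mk _ ⟨p.succ, 𝟙 _⟩)
      refine (n1.symm.trans ?_).trans n2
      refine congrArg (h.app _) ?_
      show Quot.mk (SumRel j T _) ⟨p.castSucc, j.map (side true (T.lt_left p)) ≫ 𝟙 _⟩ =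
        Quot.mk (SumRel j T _) ⟨p.succ, j.map (side false (T.lt_right p)) ≫ 𝟙 _⟩
      have h0 := SumRel.glue (j := j) (T := T) p (𝟙 (j.obj (disc (T.bot p))))
      simp only [Category.id_comp] at h0
      simpa using Quot.sound h0
    refine ⟨fun g g' hgg => yonedaEquiv.injective ?_, fun h => ?_⟩
    · obtain ⟨x, -, hu⟩ := hX T (fun p => (sumMap j T ≫ g).app (op (j.obj (disc (T.top p))))
        (Quot.mk _ ⟨p, 𝟙 _⟩)) (glued (sumMap j T ≫ g))
      rw [hu (yonedaEquiv g) (val g), hu (yonedaEquiv g') fun p => (val g' p).trans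
        (congrArg (fun k : sumPsh j T ⟶ X => k.app (op (j.obj (disc (T.top p))))
          (Quot.mk _ ⟨p, 𝟙 _⟩)) hgg.symm)]
    · obtain ⟨x, hx, -⟩ := hX T (fun p => h.app (op (j.obj (disc (T.top p))))
        (Quot.mk _ ⟨p, 𝟙 _⟩)) (glued h)
      refine ⟨yonedaEquiv.symm x, NatTrans.ext (funext fun U =>
        ConcreteCategory.hom_ext _ _ fun a => ?_)⟩
      induction a using Quot.ind with
      | _ a =>
        show X.map (a.2 ≫ j.map (incl T a.1)).op x = h.app U (Quot.mk _ a)
        simp only [op_comp, Functor.map_comp]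
        refine ((congrArg (X.map a.2.op) (hx a.1)).trans
          (ConcreteCategory.congr_hom (h.naturality a.2.op) (Quot.mk _ ⟨a.1, 𝟙 _⟩)).symm).trans ?_
        refine congrArg (h.app U) ?_
        show Quot.mk (SumRel j T _) ⟨a.1, a.2 ≫ 𝟙 _⟩ = _
        simp

end Sums

end

end Vale.Agent.P259.Exist
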