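import Vale.Agent.P259.Exist.Adjoin
import Vale.Agent.P259.Exist.Local
import Vale.Agent.P259.Exist.Sums
import Vale.Agent.P259.Core

/-!
# P259, existence: universally adjoining lifts of all admissible pairs to an extension
-/

namespace Vale.Agent.P259.Exist

open CategoryTheory Opposite

noncomputable section

variable (E : Ext)

/-- One new arrow for every pair. -/
inductive NewArr : E.Obj → E.Obj → Type where
  | mk (a : E.Pair) : NewArr (E.i.obj (disc (a.n + 1))) (E.i.obj a.T)

/-- The sides of the new arrows. -/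
inductive NewRel : ∀ X Y : E.Obj, P259.Exist.Word (NewArr E) X Y →
    P259.Exist.Word (NewArr E) X Y → Prop where
  | src (a : E.Pair) :
      NewRel _ _ (.comp (.old (E.face false a.n)) (.new (NewArr.mk a))) (.old a.f)
  | tgt (a : E.Pair) :
      NewRel _ _ (.comp (.old (E.face true a.n)) (.new (NewArr.mk a))) (.old a.g)

/-- The category with the new arrows. -/
abbrev Mid : Type := P259.Exist.Adjoin (NewArr E) (NewRel E)

/-- The globular sums in it. -/
abbrev midOb : Table ⥤ Mid E := E.i ⋙ P259.Exist.Adjoin.incl (NewArr E) (NewRel E)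

/-- The category with the new arrows, the globular sums made exact. -/
abbrev StepObj : Type := P259.Exist.Cl (Sums.sumMap (midOb E))

/-- The comparison with the new category. -/
abbrev midIncl : Mid E ⥤ StepObj E := P259.Exist.Cl.incl (Sums.sumMap (midOb E))

/-- The old category maps to the next one. -/
def stepJ : E.Obj ⥤ StepObj E :=
  P259.Exist.Adjoin.incl (NewArr E) (NewRel E) ⋙ midIncl E

theorem step_obj_bij : Function.Bijective (E.i ⋙ stepJ E).obj := E.obj_bij

theorem step_sums : PreservesSums (E.i ⋙ stepJ E) := by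
  intro T Z f hf
  obtain ⟨x, hx, hu⟩ := (Sums.isLoc_iff (midOb E) _).1
    (P259.Exist.locObj_isLoc (Sums.sumMap (midOb E)) (P259.Exist.Cl.un _ Z)) T f
    (fun p => (P259.Exist.Cl.incl_comp _ _ _).symm.trans
      ((hf p).trans (P259.Exist.Cl.incl_comp _ _ _)))
  exact ⟨x, fun p => (P259.Exist.Cl.incl_comp _ _ _).trans (hx p),
    fun y hy => hu y fun p => (P259.Exist.Cl.incl_comp _ _ _).symm.trans (hy p)⟩

/-- The next extension. -/
@[reducible] def step : Ext where
  Obj := StepObj E
  i := E.i ⋙ stepJ E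
  obj_bij := step_obj_bij E
  sums := step_sums E

/-- The chosen lift of a pair. -/
def stepLift (a : E.Pair) : (step E).M (disc (a.n + 1)) a.T :=
  (midIncl E).map (P259.Exist.Adjoin.cls (NewArr E) (NewRel E) (.new (NewArr.mk a)))

theorem stepLift_src (a : E.Pair) :
    (step E).face false a.n ≫ stepLift E a = (stepJ E).map a.f :=
  ((midIncl E).map_comp _ _).symm.trans
    (congrArg (midIncl E).map (Quotient.sound (P259.Exist.Eqv.rel (NewRel.src a))))

theorem stepLift_tgt (a : E.Pair) :
    (step E).face true a.n ≫ stepLift E a = (stepJ E).map a.g :=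
  ((midIncl E).map_comp _ _).symm.trans
    (congrArg (midIncl E).map (Quotient.sound (P259.Exist.Eqv.rel (NewRel.tgt a))))

theorem mid_glues_of_sums {K : Type 1} [Category.{0} K] (G : Mid E ⥤ K)
    (h : PreservesSums (midOb E ⋙ G)) (Z : K) : Glues (midOb E) (G.op ⋙ yoneda.obj Z) :=
  fun T c hc => h T Z c hc

/-- The universal property of the next extension. -/
theorem step_universal (K : Type 1) [Category.{0} K] (F : E.Obj ⥤ K)
    (hF : PreservesSums (E.i ⋙ F)) (k : ∀ a : ↥(Set.univ : Set E.Pair), a.1.Target F)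
    (hk : ∀ a : ↥(Set.univ : Set E.Pair), a.1.IsLiftTo F (k a)) :
    ∃! F' : StepObj E ⥤ K, stepJ E ⋙ F' = F ∧
      ∀ a : (Set.univ : Set E.Pair), HEq (F'.map (stepLift E a.1)) (k a) := by
  let φ : ∀ {X Y : E.Obj}, NewArr E X Y → (F.obj X ⟶ F.obj Y) := fun {X Y} h =>
    match X, Y, h with
    | _, _, NewArr.mk a => k ⟨a, trivial⟩
  have hR : ∀ {X Y : E.Obj} (a b : P259.Exist.Word (NewArr E) X Y), NewRel E X Y a b →
      P259.Exist.evalWord F φ a = P259.Exist.evalWord F φ b := by
    intro X Y a b h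
    cases h with
    | src a => exact (hk ⟨a, trivial⟩).1
    | tgt a => exact (hk ⟨a, trivial⟩).2
  let G : Mid E ⥤ K := P259.Exist.Adjoin.lift (NewRel E) F φ hR
  have eG : P259.Exist.Adjoin.incl (NewArr E) (NewRel E) ⋙ G = F :=
    P259.Exist.Adjoin.incl_lift _ _ _ _
  have hG : ∀ T : Mid E,
      Free.IsLoc (Sums.sumMap (midOb E)) (G.op ⋙ yoneda.obj (G.obj T)) := fun T =>
    (Sums.isLoc_iff _ _).2 (mid_glues_of_sums E G hF _)
  refine ⟨P259.Exist.Cl.lift _ G hG, ⟨?_, fun a => ?_⟩, fun F'' h => ?_⟩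
  · show P259.Exist.Adjoin.incl (NewArr E) (NewRel E) ⋙
      (midIncl E ⋙ P259.Exist.Cl.lift _ G hG) = F
    rw [P259.Exist.Cl.incl_lift, eG]
  · exact (Functor.hcongr_hom (P259.Exist.Cl.incl_lift _ G hG)
      (P259.Exist.Adjoin.cls (NewArr E) (NewRel E) (.new (NewArr.mk a.1))) :)
  · have e : midIncl E ⋙ F'' = G := P259.Exist.Adjoin.ext_functor (NewRel E) _ _
      (h.1.trans eG.symm) fun {X Y} x => by
        cases x with
        | mk a => exact h.2 ⟨a, trivial⟩
    have hloc : ∀ G' : Mid E ⥤ K, G' = G → ∀ T : Mid E,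
        Free.IsLoc (Sums.sumMap (midOb E)) (G'.op ⋙ yoneda.obj (G'.obj T)) := by
      rintro _ rfl
      exact hG
    exact P259.Exist.Cl.ext_functor _ F'' (P259.Exist.Cl.lift _ G hG) (hloc _ e)
      (e.trans (P259.Exist.Cl.incl_lift _ G hG).symm)

/-- The next extension adjoins lifts of all pairs. -/
def stepAdjoins : Adjoins E (step E) where
  J := stepJ E
  comm := rfl
  A := Set.univ
  lift a := stepLift E a.1
  lift_src a := heq_of_eq (stepLift_src E a.1)
  lift_tgt a := heq_of_eq (stepLift_tgt E a.1)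
  universal := step_universal E

end

end Vale.Agent.P259.Exist
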